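import Vale.Agent.Lib.P058.KiteGeom

/-!
# P058: vectors obtained from a fixed vector by swapping disjoint cyclically adjacent coordinates
-/

namespace Vale.Agent.P058

/-- cyclic successor on `{0, ..., m}` -/
def csucc (m y : ℕ) : ℕ := if y = m then 0 else y + 1

/-- cyclic predecessor on `{0, ..., m}` -/
def cpred (m y : ℕ) : ℕ := if y = 0 then m else y - 1

/-- `T` encodes a set of edges of the cycle on `{0, ..., m}`: `T y = true` means that the edge
joining `y` and `csucc m y` is chosen.  `swapAt m T` exchanges the two ends of every chosen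
edge. -/
def swapAt (m : ℕ) (T : ℕ → Bool) (y : ℕ) : ℕ :=
  if T y then csucc m y else if T (cpred m y) then cpred m y else y

/-- no two chosen edges share a vertex -/
def Indep (m : ℕ) (T : ℕ → Bool) : Prop :=
  ∀ y, y ≤ m → T y = true → T (csucc m y) = false

/-- the vector `(val 0, ..., val m)` with the two coordinates at the ends of every chosen edge
exchanged -/
noncomputable def cycVec (m : ℕ) (val : ℕ → ℝ) (T : ℕ → Bool) : E (m + 1) :=
  WithLp.toLp 2 fun y : Fin (m + 1) => val (swapAt m T y.val)

theorem cycVec_apply (m : ℕ) (val : ℕ → ℝ) (T : ℕ → Bool) (y : Fin (m + 1)) :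
    cycVec m val T y = val (swapAt m T y.val) := rfl

end Vale.Agent.P058
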