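import Vale.Agent.Lib.P058.Ramsey.Step
import Vale.Agent.Lib.P058.Ramsey.CycleDefs

/-!
# P058: the level induction for cycle-matching words
-/

namespace Vale.Agent.P058

open scoped BigOperators

variable {A I : Type}

theorem Good.congr {r : ℕ} {gl nl gl' nl' : I → A} {run : A} {Φ Φ' : ((I → A) → ℝ) → ℝ}
    (h : Good A I r gl nl run Φ) (h1 : ∀ i, gl i = gl' i) (h2 : ∀ i, nl i = nl' i)
    (h3 : ∀ F : (I → A) → ℝ, (∀ z, F (fun _ => z) = 0) → Φ F = Φ' F) :
    Good A I r gl' nl' run Φ' := by
  obtain rfl : gl = gl' := funext h1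
  obtain rfl : nl = nl' := funext h2
  obtain ⟨n, hn⟩ := h
  refine ⟨n, fun χ => ?_⟩
  obtain ⟨x, pG, pN, a1, a2, a3, a4, a5, a6⟩ := hn χ
  exact ⟨x, pG, pN, a1, a2, a3, a4, a5, fun F hF => by rw [a6 F hF, h3 F hF]⟩

/-- letter in the first tracked column at level `j` -/
def glAt (m : ℕ) (T : ℕ → Bool) (j : ℕ) : ℕ :=
  if T (m - 1) then m - 1 else if j = 0 ∧ T m = true then 0 else m

/-- letter in the second tracked column at level `j` -/
def nlAt (m : ℕ) (T : ℕ → Bool) (j : ℕ) : ℕ :=
  if T j then j + 1 else if j = 0 ∧ T m = true then m else j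

/-- the way the letter `j` is inserted -/
def modeAt (m : ℕ) (T : ℕ → Bool) (j : ℕ) : Mode :=
  if T j then (if j + 1 = m then Mode.gamma else Mode.beta)
  else if j = 0 ∧ T m = true then Mode.gamma else Mode.alpha

theorem modeAt_beta (m : ℕ) (T : ℕ → Bool) (j : ℕ) (h : modeAt m T j = Mode.beta) :
    T j = true := by
  cases hT : T j
  · exfalso
    simp only [modeAt, hT, Bool.false_eq_true, if_false] at h
    split_ifs at h
  · rfl

theorem newG_chain (L : ℕ → A) (m j : ℕ) (T : ℕ → Bool) (hj : j + 1 < m)
    (i2 : T m = true → T 0 = false) (i3 : T (m - 1) = true → T m = false) :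
    newG (L j) (L (glAt m T (j + 1))) (modeAt m T j) = L (glAt m T j) := by
  have hj1 : j + 1 ≠ m := by omega
  cases h : T j <;> cases h' : T m <;> cases h'' : T (m - 1) <;>
    by_cases h0 : j = 0 <;> simp_all [modeAt, glAt, newG]

theorem newN_chain (L : ℕ → A) (m j : ℕ) (T : ℕ → Bool) (hj : j + 1 < m)
    (i2 : T m = true → T 0 = false) (i3 : T (m - 1) = true → T m = false) :
    newN (L j) (L (j + 1)) (L (glAt m T (j + 1))) (modeAt m T j) = L (nlAt m T j) := by
  have hj1 : j + 1 ≠ m := by omega
  cases h : T j <;> cases h' : T m <;> cases h'' : T (m - 1) <;>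
    by_cases h0 : j = 0 <;> simp_all [modeAt, glAt, nlAt, newN]

theorem oldN_chain (L : ℕ → A) (m j : ℕ) (T : ℕ → Bool) (hj : j + 1 < m)
    (i1 : T j = true → T (j + 1) = false) :
    oldN (L j) (L (nlAt m T (j + 1))) (modeAt m T j) = L (swapAt m T (j + 1)) := by
  have hj1 : j + 1 ≠ m := by omega
  cases h : T j <;> cases h' : T (j + 1) <;> cases h'' : T m <;>
    by_cases h0 : j = 0 <;> simp_all [modeAt, nlAt, oldN, swapAt, csucc, cpred]

theorem chain [Finite A] {r : ℕ} (hr : 0 < r) (m : ℕ) (hm : 2 ≤ m) (L : ℕ → A)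
    (T : I → ℕ → Bool) (hT : ∀ i, Indep m (T i)) :
    ∀ d j, j + d + 1 = m →
      Good A I r (fun i => L (glAt m (T i) j)) (fun i => L (nlAt m (T i) j)) (L j)
        (fun F => ∑ d' ∈ Finset.range d, F (fun i => L (swapAt m (T i) (j + 1 + d')))) := by
  have I1 : ∀ i j, j < m → T i j = true → T i (j + 1) = false := by
    intro i j hj h
    have := hT i j hj.le h
    rwa [csucc, if_neg hj.ne] at this
  have I2 : ∀ i, T i m = true → T i 0 = false := by
    intro i h
    have := hT i m le_rfl h
    rwa [csucc, if_pos rfl] at this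
  have I3 : ∀ i, T i (m - 1) = true → T i m = false := by
    intro i h
    have := I1 i (m - 1) (by omega) h
    rwa [show m - 1 + 1 = m by omega] at this
  intro d
  induction d with
  | zero =>
    intro j hj
    have hb : Good A I r (fun _ => L m) (fun _ => L m) (L m) (fun _ => 0) := Good.base r (L m) (L m)
    have hs := hb.step hr (L j) (fun i => modeAt m (T i) j) (by intro i _; rfl)
    have hj1 : j + 1 = m := by omega
    have hj0 : j ≠ 0 := by omega
    have hmj : m - 1 = j := by omega
    refine hs.congr ?_ ?_ ?_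
    · intro i
      cases h : T i j <;> simp [modeAt, glAt, newG, h, hj1, hj0, hmj]
    · intro i
      cases h : T i j <;> simp [modeAt, nlAt, newN, h, hj1, hj0]
    · intro F hF
      have : (fun i => oldN (L j) (L m) (modeAt m (T i) j)) = fun _ => L m := by
        funext i
        cases h : T i j <;> simp [modeAt, oldN, h, hj1, hj0]
      simp [this, hF]
  | succ d ih =>
    intro j hj
    have hs := (ih (j + 1) (by omega)).step hr (L j) (fun i => modeAt m (T i) j) (by
      intro i hi
      have := I1 i j (by omega) (modeAt_beta m (T i) j hi)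
      simp [nlAt, this])
    refine hs.congr ?_ ?_ ?_
    · intro i
      exact newG_chain L m j (T i) (by omega) (I2 i) (I3 i)
    · intro i
      exact newN_chain L m j (T i) (by omega) (I2 i) (I3 i)
    · intro F hF
      rw [Finset.sum_range_succ', add_comm]
      congr 1
      · apply Finset.sum_congr rfl
        intro d' _
        congr 1
        funext i
        congr 2
        omega
      · congr 1
        funext i
        exact oldN_chain L m j (T i) (by omega) (I1 i j (by omega))

end Vale.Agent.P058
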