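import Vale.Agent.Lib.P058.Ramsey.Chain

/-!
# P058: families of cycle-matching vectors are Ramsey
-/

namespace Vale.Agent.P058

open scoped BigOperators

variable {A I : Type}

theorem swapAt_le (m : ℕ) (T : ℕ → Bool) (y : ℕ) (hy : y ≤ m) : swapAt m T y ≤ m := by
  unfold swapAt csucc cpred
  split_ifs <;> omega

theorem glAt_zero (M : ℕ) (T : ℕ → Bool) (i3 : T M = true → T (M + 1) = false) :
    glAt (M + 1) T 0 = swapAt (M + 1) T (M + 1) := by
  cases h : T M <;> cases h' : T (M + 1) <;> simp_all [glAt, swapAt, csucc, cpred]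

theorem nlAt_zero (M : ℕ) (T : ℕ → Bool) : nlAt (M + 1) T 0 = swapAt (M + 1) T 0 := by
  cases h : T 0 <;> cases h' : T (M + 1) <;> simp_all [nlAt, swapAt, csucc, cpred]

theorem cycle_words [Finite A] {r : ℕ} (hr : 0 < r) (m : ℕ) (hm : 2 ≤ m) (L : ℕ → A)
    (T : I → ℕ → Bool) (hT : ∀ i, Indep m (T i)) :
    ∃ n, 1 ≤ n ∧ ∀ χ : (Fin n → A) → Fin r, ∃ x : I → Fin n → A, (∃ k0, ∀ i, χ (x i) = k0) ∧
      ∀ F : (I → A) → ℝ, (∀ z, F (fun _ => z) = 0) →
        ∑ t, F (fun i => x i t) = ∑ y ∈ Finset.range (m + 1), F (fun i => L (swapAt m (T i) y)) := by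
  obtain ⟨M, rfl⟩ : ∃ M, m = M + 1 := ⟨m - 1, by omega⟩
  obtain ⟨n, hn⟩ := chain hr (M + 1) hm L T hT M 0 (by omega)
  refine ⟨n, ?_, fun χ => ?_⟩
  · obtain ⟨x, pG, _⟩ := hn (fun _ => ⟨0, hr⟩)
    have := pG.isLt
    omega
  · obtain ⟨x, pG, pN, a1, a2, a3, a4, a5, a6⟩ := hn χ
    refine ⟨x, a5, fun F hF => ?_⟩
    rw [a6 F hF, Finset.sum_range_succ, Finset.sum_range_succ']
    have e1 : (fun i => L (glAt (M + 1) (T i) 0)) = fun i => L (swapAt (M + 1) (T i) (M + 1)) := by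
      funext i
      have i3 : T i M = true → T i (M + 1) = false := by
        intro h
        have := hT i M (by omega) h
        rwa [csucc, if_neg (by omega)] at this
      rw [glAt_zero M (T i) i3]
    have e2 : (fun i => L (nlAt (M + 1) (T i) 0)) = fun i => L (swapAt (M + 1) (T i) 0) := by
      funext i
      rw [nlAt_zero M (T i)]
    have e3 : ∑ d' ∈ Finset.range M, F (fun i => L (swapAt (M + 1) (T i) (0 + 1 + d')))
        = ∑ y ∈ Finset.range M, F (fun i => L (swapAt (M + 1) (T i) (y + 1))) := by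
      apply Finset.sum_congr rfl
      intro d' _
      congr 1
      funext i
      congr 2
      omega
    rw [e1, e2]
    beta_reduce
    rw [e3]
    ring

theorem dist_sq_E {n : ℕ} (x y : E n) : dist x y ^ 2 = ∑ t, (x t - y t) ^ 2 := by
  rw [EuclideanSpace.dist_eq, Real.sq_sqrt (by positivity)]
  simp [Real.dist_eq, sq_abs]

/-- Any family of vectors obtained from one vector `(val 0, ..., val m)` by exchanging the
coordinates at the ends of pairwise disjoint edges of the cycle on `{0, ..., m}` has, for every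
number of colours, a monochromatic congruent copy in some finite dimension. -/
theorem cycle_family_ramsey {I : Type} (m : ℕ) (hm : 2 ≤ m) (T : I → ℕ → Bool)
    (hT : ∀ i, Indep m (T i)) (val : ℕ → ℝ) (r : ℕ) (hr : 0 < r) :
    ∃ n, 1 ≤ n ∧ ∀ χ : E n → Fin r, ∃ X : I → E n, (∃ k0, ∀ i, χ (X i) = k0) ∧
      ∀ i i', dist (X i) (X i') = dist (cycVec m val (T i)) (cycVec m val (T i')) := by
  obtain ⟨n, hn1, hn⟩ := cycle_words (A := Fin (m + 1)) hr m hm
    (fun j => ⟨j % (m + 1), Nat.mod_lt _ (Nat.succ_pos m)⟩) T hT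
  refine ⟨n, hn1, fun χ => ?_⟩
  obtain ⟨x, hmono, hF⟩ := hn (fun w => χ (WithLp.toLp 2 fun t => val (w t).val))
  refine ⟨fun i => WithLp.toLp 2 fun t => val (x i t).val, hmono, fun i i' => ?_⟩
  refine dist_eq_of_sq_eq (r := ∑ y ∈ Finset.range (m + 1),
    (val (swapAt m (T i) y) - val (swapAt m (T i') y)) ^ 2) ?_ ?_
  · rw [dist_sq_E]
    have := hF (fun c => (val (c i).val - val (c i').val) ^ 2) (by intro z; simp)
    simp only at this
    rw [show (∑ t, ((WithLp.toLp 2 fun t => val (x i t).val : E n) t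
        - (WithLp.toLp 2 fun t => val (x i' t).val : E n) t) ^ 2)
        = ∑ t, (val (x i t).val - val (x i' t).val) ^ 2 from rfl, this]
    apply Finset.sum_congr rfl
    intro y hy
    have hy' : y ≤ m := by
      have := Finset.mem_range.mp hy
      omega
    rw [Nat.mod_eq_of_lt (Nat.lt_succ_of_le (swapAt_le m (T i) y hy')),
      Nat.mod_eq_of_lt (Nat.lt_succ_of_le (swapAt_le m (T i') y hy'))]
  · rw [dist_sq_E, Finset.sum_range]
    rfl

/-- From families to sets. -/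
theorem ramsey_of_family {d : ℕ} {ι : Type} (p : ι → E d)
    (h : ∀ r : ℕ, 0 < r → ∃ n, 1 ≤ n ∧ ∀ χ : E n → Fin r, ∃ X : ι → E n,
      (∃ k0, ∀ i, χ (X i) = k0) ∧ ∀ i i', dist (X i) (X i') = dist (p i) (p i')) :
    IsRamsey (Set.range p) := by
  classical
  intro r hr
  obtain ⟨n, hn1, hn⟩ := h r (by omega)
  refine ⟨n, hn1, fun c => ?_⟩
  obtain ⟨X, ⟨k0, hk⟩, hd⟩ := hn c
  refine ⟨fun x => if h : ∃ i, p i = x then X h.choose else 0, ?_, k0, ?_⟩
  · rintro _ ⟨i, rfl⟩ _ ⟨j, rfl⟩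
    have hi : ∃ i', p i' = p i := ⟨i, rfl⟩
    have hj : ∃ j', p j' = p j := ⟨j, rfl⟩
    simp only [hi, hj, dite_true]
    rw [hd, hi.choose_spec, hj.choose_spec]
  · rintro _ ⟨i, rfl⟩
    have hi : ∃ i', p i' = p i := ⟨i, rfl⟩
    simp only [hi, dite_true]
    exact hk _

end Vale.Agent.P058
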