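import Mathlib

/-!
# P058: the finite Ramsey theorem for `q`-element subsets (hypergraph Ramsey theorem)

Not in Mathlib.  Two forms: for finsets (off-diagonal, many colours) and for order embeddings.

Proof sketch of `ramsey_finset` (induction on `q`, inner induction on the sum of the `N i`):
* `q = 0`: the colour of the empty set is some `i`; take `n = ∑ i, N i` (or the sup) and pick
  `M ⊆ X` with `M.card = N (c ∅)`.
* `q + 1`: if some `N i ≤ q` then `n = N i` works (no subsets of size `q + 1` inside `M`).
  Otherwise let `n i` be a number that works for `q + 1` and `Function.update N i (N i - 1)`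
  (inner induction), let `n'` work for `q` and the function `n`; then `n' + 1` works:
  pick `v ∈ X`, colour the `q`-subsets `S` of `X.erase v` by `c (insert v S)`, get `i` and
  `Y` with `Y.card = n i`; inside `Y` get `i'` and `M`; if `i' ≠ i` done, otherwise `insert v M`.
-/

namespace Vale.Agent.P058

/-- The inner induction of `ramsey_finset`. -/
private theorem ramsey_finset_step (q : ℕ) {κ : Type} [Fintype κ] [DecidableEq κ] [Nonempty κ]
    (ih : ∀ N : κ → ℕ, ∃ n : ℕ, ∀ X : Finset ℕ, n ≤ X.card → ∀ c : Finset ℕ → κ,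
      ∃ (i : κ) (M : Finset ℕ), M ⊆ X ∧ M.card = N i ∧ ∀ S ⊆ M, S.card = q → c S = i) :
    ∀ (s : ℕ) (N : κ → ℕ), ∑ i, N i = s →
      ∃ n : ℕ, ∀ X : Finset ℕ, n ≤ X.card → ∀ c : Finset ℕ → κ,
      ∃ (i : κ) (M : Finset ℕ), M ⊆ X ∧ M.card = N i ∧ ∀ S ⊆ M, S.card = q + 1 → c S = i := by
  intro s
  induction s using Nat.strong_induction_on with
  | _ s ihs =>
    intro N hN
    by_cases hsmall : ∃ i, N i ≤ q
    · obtain ⟨i, hi⟩ := hsmall
      refine ⟨N i, fun X hX c => ?_⟩
      obtain ⟨M, hMX, hMc⟩ := Finset.exists_subset_card_eq hX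
      refine ⟨i, M, hMX, hMc, fun S hS hSc => ?_⟩
      have := Finset.card_le_card hS
      omega
    · push Not at hsmall
      have hlt : ∀ i, ∑ j, Function.update N i (N i - 1) j < s := by
        intro i
        rw [← hN]
        refine Finset.sum_lt_sum (fun j _ => ?_) ⟨i, Finset.mem_univ i, ?_⟩
        · by_cases hj : j = i
          · subst hj; simp
          · simp [Function.update_of_ne hj]
        · have := hsmall i
          simp only [Function.update_self]
          omega
      have hex : ∀ i, ∃ n : ℕ, ∀ X : Finset ℕ, n ≤ X.card → ∀ c : Finset ℕ → κ,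
          ∃ (i' : κ) (M : Finset ℕ), M ⊆ X ∧ M.card = Function.update N i (N i - 1) i' ∧
            ∀ S ⊆ M, S.card = q + 1 → c S = i' :=
        fun i => ihs _ (hlt i) _ rfl
      choose n hn using hex
      obtain ⟨n', hn'⟩ := ih n
      refine ⟨n' + 1, fun X hX c => ?_⟩
      have hXne : X.Nonempty := by
        rw [← Finset.card_pos]; omega
      obtain ⟨v, hv⟩ := hXne
      have hcard : n' ≤ (X.erase v).card := by
        rw [Finset.card_erase_of_mem hv]; omega
      obtain ⟨i, Y, hYX, hYc, hY⟩ := hn' (X.erase v) hcard (fun S => c (insert v S))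
      obtain ⟨i', M, hMY, hMc, hM⟩ := hn i Y hYc.ge c
      have hMX : M ⊆ X := (hMY.trans hYX).trans (Finset.erase_subset _ _)
      by_cases hii : i' = i
      · subst hii
        have hvM : v ∉ M := fun h => Finset.notMem_erase v X (hYX (hMY h))
        refine ⟨i', insert v M, Finset.insert_subset hv hMX, ?_, fun S hS hSc => ?_⟩
        · rw [Finset.card_insert_of_notMem hvM, hMc, Function.update_self]
          have := hsmall i'
          omega
        · by_cases hvS : v ∈ S
          · have h1 : (S.erase v) ⊆ Y := by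
              intro x hx
              have hx1 := Finset.mem_erase.1 hx
              rcases Finset.mem_insert.1 (hS hx1.2) with h | h
              · exact absurd h hx1.1
              · exact hMY h
            have h2 : (S.erase v).card = q := by
              rw [Finset.card_erase_of_mem hvS]; omega
            have h3 := hY _ h1 h2
            rwa [Finset.insert_erase hvS] at h3
          · refine hM S (fun x hx => ?_) hSc
            rcases Finset.mem_insert.1 (hS hx) with h | h
            · exact absurd (h ▸ hx) hvS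
            · exact h
      · refine ⟨i', M, hMX, ?_, hM⟩
        rw [hMc, Function.update_of_ne hii]

/-- Finite Ramsey theorem for `q`-subsets, off-diagonal form with colours in a finite type. -/
theorem ramsey_finset (q : ℕ) {κ : Type} [Fintype κ] [DecidableEq κ] [Nonempty κ] (N : κ → ℕ) :
    ∃ n : ℕ, ∀ X : Finset ℕ, n ≤ X.card → ∀ c : Finset ℕ → κ,
      ∃ (i : κ) (M : Finset ℕ), M ⊆ X ∧ M.card = N i ∧ ∀ S ⊆ M, S.card = q → c S = i := by
  induction q generalizing N with
  | zero =>
    refine ⟨∑ i, N i, fun X hX c => ?_⟩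
    have h1 : N (c ∅) ≤ X.card :=
      le_trans (Finset.single_le_sum (f := N) (fun _ _ => Nat.zero_le _) (Finset.mem_univ _)) hX
    obtain ⟨M, hMX, hMc⟩ := Finset.exists_subset_card_eq h1
    refine ⟨c ∅, M, hMX, hMc, fun S _ hSc => ?_⟩
    rw [Finset.card_eq_zero.1 hSc]
  | succ q ih =>
    exact ramsey_finset_step q ih _ N rfl

/-- Finite Ramsey theorem for `q`-subsets, stated with order embeddings. -/
theorem ramsey_orderEmb (q N : ℕ) (κ : Type) [Finite κ] [Nonempty κ] :
    ∃ n : ℕ, ∀ c : (Fin q ↪o Fin n) → κ,
      ∃ (e : Fin N ↪o Fin n) (k0 : κ), ∀ s : Fin q ↪o Fin N, c (s.trans e) = k0 := by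
  classical
  have : Fintype κ := Fintype.ofFinite κ
  obtain ⟨n, hn⟩ := ramsey_finset q (fun _ : κ => N)
  refine ⟨n, fun c => ?_⟩
  -- pull back to finsets of naturals
  let tr : Finset ℕ → Finset (Fin n) := fun S => Finset.univ.filter fun i : Fin n => (i : ℕ) ∈ S
  let c'' : Finset (Fin n) → κ := fun T =>
    if h : T.card = q then c (T.orderEmbOfFin h) else Classical.arbitrary κ
  obtain ⟨k0, M, hMX, hMc, hM⟩ := hn (Finset.range n) (by simp) (fun S => c'' (tr S))
  have htrmap : ∀ T : Finset (Fin n), tr (T.map Fin.valEmbedding) = T := by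
    intro T
    ext i
    simp only [tr, Finset.mem_filter, Finset.mem_univ, true_and, Finset.mem_map,
      Fin.valEmbedding_apply]
    constructor
    · rintro ⟨j, hj, hji⟩
      rwa [← Fin.ext hji]
    · intro hi
      exact ⟨i, hi, rfl⟩
  have hmaptr : (tr M).map Fin.valEmbedding = M := by
    ext x
    simp only [tr, Finset.mem_filter, Finset.mem_univ, true_and, Finset.mem_map,
      Fin.valEmbedding_apply]
    constructor
    · rintro ⟨j, hj, rfl⟩
      exact hj
    · intro hx
      exact ⟨⟨x, Finset.mem_range.1 (hMX hx)⟩, hx, rfl⟩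
  have hcardM : (tr M).card = N := by
    rw [← hMc, ← hmaptr, Finset.card_map, hmaptr]
  refine ⟨(tr M).orderEmbOfFin hcardM, k0, fun s => ?_⟩
  set f : Fin q ↪o Fin n := s.trans ((tr M).orderEmbOfFin hcardM) with hf
  set T : Finset (Fin n) := Finset.univ.map f.toEmbedding with hT
  have hTc : T.card = q := by simp [hT]
  have hTM : T ⊆ tr M := by
    intro x hx
    obtain ⟨j, _, rfl⟩ := Finset.mem_map.1 hx
    exact Finset.orderEmbOfFin_mem (tr M) hcardM (s j)
  have hS : T.map Fin.valEmbedding ⊆ M := by
    rw [← hmaptr]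
    exact Finset.map_subset_map.2 hTM
  have h1 := hM _ hS (by rw [Finset.card_map, hTc])
  simp only [htrmap] at h1
  have h2 : f = T.orderEmbOfFin hTc :=
    Finset.orderEmbOfFin_unique' hTc (fun x => Finset.mem_map.2 ⟨x, Finset.mem_univ _, rfl⟩)
  simp only [c'', hTc, dif_pos] at h1
  rw [h2]
  exact h1

end Vale.Agent.P058
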