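import Vale.Agent.Lib.P058.Ramsey.CycleDefs

/-!
# P058: right kites with rational parameter as four cycle-matching vectors

Let `1/2 < u = P/Q < 1`, `h = 2P - Q` (so `1 ≤ h < P`, `Q + h = 2P`), `m = 4P - 1` (cycle of length
`4P`).  Edge `s` joins `s` and `csucc m s`.  Edge sets:
* `T 0 = ∅`                                   (vertex `a = kitePt 0`),
* `T 2 = {s even}`, `T 3 = {s odd}`           (the two perfect matchings, `b` and `d`),
* `T 1 = τ = {s even, s < 2h} ∪ {s odd, 2h < s < 4h}`   (vertex `c = kitePt 1`), `2h` edges.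
Increments `e s = -Q` if `s ∈ τ`, `e s = h` otherwise; `val s = c0 * ∑ t < s, e t`,
`c0 = 1 / (Q * √h)`.  The sum of all `4P` increments is `(4P - 2h) h - 2 h Q = 0`, hence
`val (csucc m y) - val y = c0 * e y` for all `y ≤ m`.

For an independent edge set `T` and `y ≤ m`:
`val (swapAt m T y) - val y = c0 * ([T y] e y - [T (cpred m y)] e (cpred m y))`.
Then, with `a, c, b, d = cycVec m val (T 0), (T 1), (T 2), (T 3)`:
* equal norms: `w y ^ 2 - val y ^ 2 = D y - D (cpred m y)` with
  `D s = [T s] (val (csucc m s) ^ 2 - val s ^ 2)`, and `∑ y ≤ m, g (cpred m y) = ∑ y ≤ m, g y`;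
* relation `b + d = 2 (1 - u) a + 2 u c` coordinatewise: `e y - e (cpred m y)
  = 2 u ([τ y] e y - [τ (cpred y)] e (cpred y))` because `2 u Q = 2 P = Q + h`;
* `dist a w_T ^ 2 = 2 c0^2 ∑ y ≤ m, [T y] (e y)^2`; for `T 2` and `T 3` this is
  `2 c0^2 (h Q^2 + (2P - h) h^2)` (use `∑ s < 4P, f s = ∑ i < 2P, (f (2i) + f (2i+1))`), for
  `T 1` it is `4 c0^2 h Q^2 = 4`.
Conclude with `four_vectors_kite` and `dist_family_eq` (file `KiteGeom.lean`).

For the square (`u = 1/2`): `m = 3`, `val s = s % 2`, `T 0 = ∅`, `T 1 = {0, 2}`, `T 2 = {0}`,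
`T 3 = {2}`; compare squared distances with `kite_dists`.
-/

namespace Vale.Agent.P058

open scoped BigOperators

/-! ### General facts on `swapAt` -/

theorem kc_csucc_cpred {m y : ℕ} (hy : y ≤ m) : csucc m (cpred m y) = y := by
  unfold csucc cpred
  split_ifs <;> omega

theorem kc_cpred_le {m y : ℕ} (hy : y ≤ m) : cpred m y ≤ m := by
  unfold cpred
  split_ifs <;> omega

theorem kc_sum_cpred (m : ℕ) (g : ℕ → ℝ) :
    ∑ y ∈ Finset.range (m + 1), g (cpred m y) = ∑ y ∈ Finset.range (m + 1), g y := by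
  rw [Finset.sum_range_succ', Finset.sum_range_succ]
  simp [cpred]

/-- `f s` if the edge `s` is chosen, `0` otherwise -/
noncomputable def kcI (T : ℕ → Bool) (f : ℕ → ℝ) (s : ℕ) : ℝ := if T s = true then f s else 0

theorem kc_not_both {m : ℕ} {T : ℕ → Bool} (hI : Indep m T) {y : ℕ} (hy : y ≤ m)
    (h1 : T (cpred m y) = true) : T y = false := by
  have := hI (cpred m y) (kc_cpred_le hy) h1
  rwa [kc_csucc_cpred hy] at this

theorem kc_swap_val {m : ℕ} {T : ℕ → Bool} (hI : Indep m T) (val e : ℕ → ℝ)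
    (he : ∀ y, y ≤ m → val (csucc m y) - val y = e y) {y : ℕ} (hy : y ≤ m) :
    val (swapAt m T y) = val y + (kcI T e y - kcI T e (cpred m y)) := by
  unfold swapAt kcI
  by_cases h1 : T (cpred m y) = true
  · have h2 := kc_not_both hI hy h1
    have h3 := he (cpred m y) (kc_cpred_le hy)
    rw [kc_csucc_cpred hy] at h3
    simp only [h1, h2, if_true, Bool.false_eq_true, if_false]
    linarith
  · rw [Bool.not_eq_true] at h1
    by_cases h2 : T y = true
    · have h3 := he y hy
      simp only [h1, h2, if_true, Bool.false_eq_true, if_false]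
      linarith
    · rw [Bool.not_eq_true] at h2
      simp only [h1, h2, Bool.false_eq_true, if_false]
      ring

theorem kc_sum_swap {m : ℕ} {T : ℕ → Bool} (hI : Indep m T) (g : ℕ → ℝ) :
    ∑ y ∈ Finset.range (m + 1), g (swapAt m T y) = ∑ y ∈ Finset.range (m + 1), g y := by
  have h1 : ∀ y ∈ Finset.range (m + 1), g (swapAt m T y) =
      g y + (kcI T (fun s => g (csucc m s) - g s) y
        - kcI T (fun s => g (csucc m s) - g s) (cpred m y)) := by
    intro y hy
    exact kc_swap_val hI g _ (fun _ _ => rfl) (by simpa [Nat.lt_succ_iff] using hy)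
  rw [Finset.sum_congr rfl h1, Finset.sum_add_distrib, Finset.sum_sub_distrib, kc_sum_cpred]
  ring

theorem kc_norm_sq (m : ℕ) (val : ℕ → ℝ) (T : ℕ → Bool) :
    ‖cycVec m val T‖ ^ 2 = ∑ y ∈ Finset.range (m + 1), val (swapAt m T y) ^ 2 := by
  rw [EuclideanSpace.norm_eq, Real.sq_sqrt (by positivity)]
  simp only [cycVec_apply, Real.norm_eq_abs, sq_abs]
  exact Fin.sum_univ_eq_sum_range (fun y => val (swapAt m T y) ^ 2) (m + 1)

theorem kc_norm_eq {m : ℕ} (val : ℕ → ℝ) {T T' : ℕ → Bool} (hI : Indep m T) (hI' : Indep m T') :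
    ‖cycVec m val T‖ = ‖cycVec m val T'‖ := by
  have h : ‖cycVec m val T‖ ^ 2 = ‖cycVec m val T'‖ ^ 2 := by
    rw [kc_norm_sq, kc_norm_sq, kc_sum_swap hI (fun s => val s ^ 2),
      kc_sum_swap hI' (fun s => val s ^ 2)]
  exact (pow_left_inj₀ (norm_nonneg _) (norm_nonneg _) two_ne_zero).mp h

theorem kc_dist_sq (m : ℕ) (val : ℕ → ℝ) (T T' : ℕ → Bool) :
    dist (cycVec m val T) (cycVec m val T') ^ 2 =
      ∑ y ∈ Finset.range (m + 1), (val (swapAt m T y) - val (swapAt m T' y)) ^ 2 := by
  rw [EuclideanSpace.dist_eq, Real.sq_sqrt (by positivity)]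
  simp only [cycVec_apply, Real.dist_eq, sq_abs]
  exact Fin.sum_univ_eq_sum_range
    (fun y => (val (swapAt m T y) - val (swapAt m T' y)) ^ 2) (m + 1)

theorem kc_swap_empty (m y : ℕ) : swapAt m (fun _ => false) y = y := by
  simp [swapAt]

theorem kc_indep_empty (m : ℕ) : Indep m (fun _ => false) := fun _ _ _ => rfl

theorem kc_dist_empty {m : ℕ} {T : ℕ → Bool} (hI : Indep m T) (val e : ℕ → ℝ)
    (he : ∀ y, y ≤ m → val (csucc m y) - val y = e y) :
    dist (cycVec m val (fun _ => false)) (cycVec m val T) ^ 2 =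
      2 * ∑ y ∈ Finset.range (m + 1), kcI T (fun s => e s ^ 2) y := by
  rw [kc_dist_sq]
  have h1 : ∀ y ∈ Finset.range (m + 1),
      (val (swapAt m (fun _ => false) y) - val (swapAt m T y)) ^ 2 =
      kcI T (fun s => e s ^ 2) y + kcI T (fun s => e s ^ 2) (cpred m y) := by
    intro y hy
    have hy' : y ≤ m := by simpa [Nat.lt_succ_iff] using hy
    rw [kc_swap_empty, kc_swap_val hI val e he hy']
    unfold kcI
    by_cases h1 : T (cpred m y) = true
    · have h2 := kc_not_both hI hy' h1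
      simp only [h1, h2, if_true, Bool.false_eq_true, if_false]
      ring
    · rw [Bool.not_eq_true] at h1
      by_cases h2 : T y = true
      · simp only [h1, h2, if_true, Bool.false_eq_true, if_false]
        ring
      · rw [Bool.not_eq_true] at h2
        simp only [h1, h2, Bool.false_eq_true, if_false]
        ring
  rw [Finset.sum_congr rfl h1, Finset.sum_add_distrib, kc_sum_cpred]
  ring

theorem kc_sum_even_odd (n : ℕ) (f : ℕ → ℝ) :
    ∑ s ∈ Finset.range (2 * n), f s = ∑ i ∈ Finset.range n, (f (2 * i) + f (2 * i + 1)) := by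
  induction n with
  | zero => simp
  | succ n ih =>
    rw [show 2 * (n + 1) = 2 * n + 1 + 1 by ring, Finset.sum_range_succ, Finset.sum_range_succ,
      Finset.sum_range_succ, ih]
    ring

theorem kc_count (n a b : ℕ) (hab : a ≤ b) (hb : b ≤ n) (c : ℝ) :
    ∑ i ∈ Finset.range n, (if a ≤ i ∧ i < b then c else 0) = ((b : ℝ) - a) * c := by
  rw [← Finset.sum_filter]
  have : Finset.filter (fun i => a ≤ i ∧ i < b) (Finset.range n) = Finset.Ico a b := by
    ext i
    simp only [Finset.mem_filter, Finset.mem_range, Finset.mem_Ico]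
    omega
  rw [this, Finset.sum_const, Nat.card_Ico, nsmul_eq_mul, Nat.cast_sub hab]

theorem kc_count' (n a b : ℕ) (hab : a ≤ b) (hb : b ≤ n) (α β : ℝ) :
    ∑ i ∈ Finset.range n, (if a ≤ i ∧ i < b then α else β) =
      ((b : ℝ) - a) * α + ((n : ℝ) - ((b : ℝ) - a)) * β := by
  have h1 : ∀ i ∈ Finset.range n, (if a ≤ i ∧ i < b then α else β) =
      β + (if a ≤ i ∧ i < b then α - β else 0) := by
    intro i _
    split_ifs <;> ring
  rw [Finset.sum_congr rfl h1, Finset.sum_add_distrib, kc_count n a b hab hb, Finset.sum_const,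
    Finset.card_range, nsmul_eq_mul]
  ring

/-! ### The explicit model -/

/-- the edge set `τ` -/
def kcTau (h s : ℕ) : Bool :=
  decide (s % 2 = 0 ∧ s < 2 * h) || decide (s % 2 = 1 ∧ 2 * h < s ∧ s < 4 * h)

/-- the even edges -/
def kcEven (s : ℕ) : Bool := decide (s % 2 = 0)

/-- the odd edges -/
def kcOdd (s : ℕ) : Bool := decide (s % 2 = 1)

theorem kcTau_even (h i : ℕ) : kcTau h (2 * i) = true ↔ (0 ≤ i ∧ i < h) := by
  unfold kcTau
  simp only [Bool.or_eq_true, decide_eq_true_eq]
  omega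

theorem kcTau_odd (h i : ℕ) : kcTau h (2 * i + 1) = true ↔ (h ≤ i ∧ i < 2 * h) := by
  unfold kcTau
  simp only [Bool.or_eq_true, decide_eq_true_eq]
  omega

theorem kcEven_even (i : ℕ) : kcEven (2 * i) = true := by
  unfold kcEven
  simp only [decide_eq_true_eq]
  omega

theorem kcEven_odd (i : ℕ) : kcEven (2 * i + 1) = false := by
  unfold kcEven
  simp only [decide_eq_false_iff_not]
  omega

theorem kcOdd_even (i : ℕ) : kcOdd (2 * i) = false := by
  unfold kcOdd
  simp only [decide_eq_false_iff_not]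
  omega

theorem kcOdd_odd (i : ℕ) : kcOdd (2 * i + 1) = true := by
  unfold kcOdd
  simp only [decide_eq_true_eq]
  omega

theorem kc_indep_even {m P : ℕ} (hm : m + 1 = 2 * (2 * P)) : Indep m kcEven := by
  intro y _ h1
  unfold kcEven csucc at *
  simp only [decide_eq_true_eq] at h1
  simp only [decide_eq_false_iff_not]
  split_ifs <;> omega

theorem kc_indep_odd (m : ℕ) : Indep m kcOdd := by
  intro y _ h1
  unfold kcOdd at h1
  unfold kcOdd csucc
  simp only [decide_eq_true_eq] at h1
  simp only [decide_eq_false_iff_not]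
  split_ifs with hy
  · norm_num
  · omega

theorem kc_indep_tau {m P h : ℕ} (hm : m + 1 = 2 * (2 * P)) (hP : h < P) :
    Indep m (kcTau h) := by
  intro y _ h1
  unfold kcTau at h1
  unfold kcTau csucc
  simp only [Bool.or_eq_true, decide_eq_true_eq] at h1
  simp only [Bool.or_eq_false_iff, decide_eq_false_iff_not]
  split_ifs with hy
  · omega
  · omega

/-- the increments -/
noncomputable def kcE (h : ℕ) (α β : ℝ) (s : ℕ) : ℝ := if kcTau h s = true then α else β

theorem kc_total (h P : ℕ) (hP : h < P) (α β : ℝ) :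
    ∑ s ∈ Finset.range (2 * (2 * P)), kcE h α β s = 2 * (h * α + (2 * P - h) * β) := by
  rw [kc_sum_even_odd, Finset.sum_add_distrib]
  unfold kcE
  simp only [kcTau_even, kcTau_odd]
  rw [kc_count' _ _ _ (Nat.zero_le h) (by omega), kc_count' _ _ _ (by omega) (by omega)]
  push_cast
  ring

theorem kc_sum_evenE (h P : ℕ) (hP : h < P) (α β : ℝ) :
    ∑ s ∈ Finset.range (2 * (2 * P)), kcI kcEven (fun s => kcE h α β s ^ 2) s =
      h * α ^ 2 + (2 * P - h) * β ^ 2 := by
  rw [kc_sum_even_odd, Finset.sum_add_distrib]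
  unfold kcE kcI
  simp only [kcTau_even, kcEven_even, kcEven_odd, if_true, Bool.false_eq_true, if_false,
    Finset.sum_const_zero, add_zero, ite_pow]
  rw [kc_count' _ _ _ (Nat.zero_le h) (by omega)]
  push_cast
  ring

theorem kc_sum_oddE (h P : ℕ) (hP : h < P) (α β : ℝ) :
    ∑ s ∈ Finset.range (2 * (2 * P)), kcI kcOdd (fun s => kcE h α β s ^ 2) s =
      h * α ^ 2 + (2 * P - h) * β ^ 2 := by
  rw [kc_sum_even_odd, Finset.sum_add_distrib]
  unfold kcE kcI
  simp only [kcTau_odd, kcOdd_even, kcOdd_odd, if_true, Bool.false_eq_true, if_false,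
    Finset.sum_const_zero, zero_add, ite_pow]
  rw [kc_count' _ _ _ (by omega) (by omega)]
  push_cast
  ring

theorem kc_sum_tauE (h P : ℕ) (hP : h < P) (α β : ℝ) :
    ∑ s ∈ Finset.range (2 * (2 * P)), kcI (kcTau h) (fun s => kcE h α β s ^ 2) s =
      2 * h * α ^ 2 := by
  have h1 : ∀ s, kcI (kcTau h) (fun s => kcE h α β s ^ 2) s = kcE h (α ^ 2) 0 s := by
    intro s
    unfold kcI kcE
    split_ifs with h2
    · simp only [h2, if_true]
    · rfl
  simp only [h1]
  rw [kc_total h P hP]
  ring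

theorem kc_even_add_odd (f : ℕ → ℝ) (s : ℕ) : kcI kcEven f s + kcI kcOdd f s = f s := by
  unfold kcI kcEven kcOdd
  simp only [decide_eq_true_eq]
  rcases Nat.mod_two_eq_zero_or_one s with h | h <;> simp [h]

/-- Right kites with rational parameter in `(1/2, 1)` are congruent to four cycle-matching
vectors. -/
theorem kite_cycle_model (P Q : ℕ) (hPQ : P < Q) (hQ : Q < 2 * P) :
    ∃ (m : ℕ) (T : Fin 4 → ℕ → Bool) (val : ℕ → ℝ), 2 ≤ m ∧ (∀ i, Indep m (T i)) ∧
      ∀ i i', dist (cycVec m val (T i)) (cycVec m val (T i'))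
        = dist (kitePt ((P : ℝ) / Q) i) (kitePt ((P : ℝ) / Q) i') := by
  obtain ⟨h, hh⟩ : ∃ h, Q + h = 2 * P := ⟨2 * P - Q, by omega⟩
  obtain ⟨m, hm⟩ : ∃ m, m + 1 = 2 * (2 * P) := ⟨4 * P - 1, by omega⟩
  have hh1 : 1 ≤ h := by omega
  have hhP : h < P := by omega
  have hQ0 : (0 : ℝ) < Q := by exact_mod_cast (by omega : 0 < Q)
  have hP0 : (0 : ℝ) < P := by exact_mod_cast (by omega : 0 < P)
  have hh0 : (0 : ℝ) < h := by exact_mod_cast hh1
  have hhR : (Q : ℝ) + h = 2 * P := by exact_mod_cast hh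
  have hPQR : (P : ℝ) < Q := by exact_mod_cast hPQ
  obtain ⟨c0, hc0sq⟩ : ∃ c0 : ℝ, c0 ^ 2 * (h * (Q : ℝ) ^ 2) = 1 := by
    refine ⟨1 / (Q * Real.sqrt h), ?_⟩
    rw [div_pow, mul_pow, Real.sq_sqrt hh0.le]
    field_simp
  set e : ℕ → ℝ := kcE h (-(c0 * Q)) (c0 * h) with he_def
  set val : ℕ → ℝ := fun s => ∑ t ∈ Finset.range s, e t with hval
  have htot : ∑ t ∈ Finset.range (m + 1), e t = 0 := by
    rw [hm, he_def, kc_total h P hhP]
    have : (2 : ℝ) * P - h = Q := by linarith
    rw [this]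
    ring
  have he : ∀ y, y ≤ m → val (csucc m y) - val y = e y := by
    intro y _
    unfold csucc
    split_ifs with hy
    · subst hy
      rw [Finset.sum_range_succ] at htot
      simp only [hval, Finset.sum_range_zero]
      linarith
    · simp only [hval, Finset.sum_range_succ]
      ring
  have I0 : Indep m (fun _ => false) := kc_indep_empty m
  have I1 : Indep m (kcTau h) := kc_indep_tau hm hhP
  have I2 : Indep m kcEven := kc_indep_even hm
  have I3 : Indep m kcOdd := kc_indep_odd m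
  refine ⟨m, ![fun _ => false, kcTau h, kcEven, kcOdd], val, by omega, ?_, ?_⟩
  · intro i
    fin_cases i
    · exact I0
    · exact I1
    · exact I2
    · exact I3
  have hu0 : (0 : ℝ) < (P : ℝ) / Q := by positivity
  have hu1 : (P : ℝ) / Q < 1 := by rw [div_lt_one hQ0]; exact hPQR
  have hsym : dist (cycVec m val (fun _ => false)) (cycVec m val kcEven) =
      dist (cycVec m val (fun _ => false)) (cycVec m val kcOdd) := by
    refine (pow_left_inj₀ dist_nonneg dist_nonneg two_ne_zero).mp ?_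
    rw [kc_dist_empty I2 val e he, kc_dist_empty I3 val e he, hm, he_def, kc_sum_evenE h P hhP,
      kc_sum_oddE h P hhP]
  have hac : dist (cycVec m val (fun _ => false)) (cycVec m val (kcTau h)) = 2 := by
    refine (pow_left_inj₀ dist_nonneg (by norm_num) two_ne_zero).mp ?_
    rw [kc_dist_empty I1 val e he, hm, he_def, kc_sum_tauE h P hhP]
    linear_combination 4 * hc0sq
  have hB : ∀ s, 2 * ((P : ℝ) / Q) * kcI (kcTau h) e s = e s - c0 * h := by
    intro s
    rw [he_def]
    unfold kcI kcE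
    split_ifs
    · field_simp
      linear_combination c0 * hhR
    · ring
  have hrel : cycVec m val kcEven + cycVec m val kcOdd =
      (2 * (1 - (P : ℝ) / Q)) • cycVec m val (fun _ => false)
        + (2 * ((P : ℝ) / Q)) • cycVec m val (kcTau h) := by
    ext y
    have hy : y.val ≤ m := Nat.lt_succ_iff.mp y.isLt
    simp only [PiLp.add_apply, PiLp.smul_apply, smul_eq_mul, cycVec_apply]
    rw [kc_swap_val I2 val e he hy, kc_swap_val I3 val e he hy, kc_swap_val I1 val e he hy,
      kc_swap_empty]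
    have a1 := kc_even_add_odd e y.val
    have a2 := kc_even_add_odd e (cpred m y.val)
    have b1 := hB y.val
    have b2 := hB (cpred m y.val)
    linear_combination a1 - a2 - b1 + b2
  obtain ⟨r01, r02, r03, r12, r13, r23⟩ := four_vectors_kite ((P : ℝ) / Q) hu0 hu1
    (cycVec m val (fun _ => false)) (cycVec m val (kcTau h)) (cycVec m val kcEven)
    (cycVec m val kcOdd) (kc_norm_eq val I2 I0) (kc_norm_eq val I1 I0) (kc_norm_eq val I3 I0)
    hrel hsym hac
  exact dist_family_eq
    (fun i => cycVec m val ((![fun _ => false, kcTau h, kcEven, kcOdd] : Fin 4 → ℕ → Bool) i))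
    (kitePt ((P : ℝ) / Q)) r01 r02 r03 r12 r13 r23

/-- The square (the kite with parameter `1/2`) as four cycle-matching vectors. -/
theorem square_cycle_model :
    ∃ (m : ℕ) (T : Fin 4 → ℕ → Bool) (val : ℕ → ℝ), 2 ≤ m ∧ (∀ i, Indep m (T i)) ∧
      ∀ i i', dist (cycVec m val (T i)) (cycVec m val (T i'))
        = dist (kitePt (1 / 2) i) (kitePt (1 / 2) i') := by
  obtain ⟨k01, k02, k03, k12, k13, k23⟩ := kite_dists (1 / 2) (by norm_num) (by norm_num)
  refine ⟨3, ![fun _ => false, fun s => decide (s = 0 ∨ s = 2), fun s => decide (s = 0),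
    fun s => decide (s = 2)], fun s => ((s % 2 : ℕ) : ℝ), by norm_num, ?_, ?_⟩
  · intro i
    fin_cases i <;> intro y hy h1 <;> interval_cases y <;> simp_all [csucc]
  · refine dist_family_eq
      (fun i => cycVec 3 (fun s => ((s % 2 : ℕ) : ℝ))
        ((![fun _ => false, fun s => decide (s = 0 ∨ s = 2), fun s => decide (s = 0),
          fun s => decide (s = 2)] : Fin 4 → ℕ → Bool) i))
      (kitePt (1 / 2)) ?_ ?_ ?_ ?_ ?_ ?_
    · refine dist_eq_of_sq_eq ?_ k01
      rw [kc_dist_sq]
      simp [Finset.sum_range_succ, swapAt, csucc, cpred]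
      norm_num
    · refine dist_eq_of_sq_eq ?_ k02
      rw [kc_dist_sq]
      simp [Finset.sum_range_succ, swapAt, csucc, cpred]
      norm_num
    · refine dist_eq_of_sq_eq ?_ k03
      rw [kc_dist_sq]
      simp [Finset.sum_range_succ, swapAt, csucc, cpred]
      norm_num
    · refine dist_eq_of_sq_eq ?_ k12
      rw [kc_dist_sq]
      simp [Finset.sum_range_succ, swapAt, csucc, cpred]
      norm_num
    · refine dist_eq_of_sq_eq ?_ k13
      rw [kc_dist_sq]
      simp [Finset.sum_range_succ, swapAt, csucc, cpred]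
      norm_num
    · refine dist_eq_of_sq_eq ?_ k23
      rw [kc_dist_sq]
      simp [Finset.sum_range_succ, swapAt, csucc, cpred]
      norm_num

end Vale.Agent.P058
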