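import Vale.Agent.Lib.P058.Ramsey.Family
import Vale.Agent.Lib.P058.Ramsey.KiteCycle
import Vale.Agent.Lib.P058.KitePerm

/-!
# P058: every right kite with rational parameter is Ramsey
-/

namespace Vale.Agent.P058

theorem kite_ramsey_of_model (u : ℝ)
    (h : ∃ (m : ℕ) (T : Fin 4 → ℕ → Bool) (val : ℕ → ℝ), 2 ≤ m ∧ (∀ i, Indep m (T i)) ∧
      ∀ i i', dist (cycVec m val (T i)) (cycVec m val (T i'))
        = dist (kitePt u i) (kitePt u i')) : IsRamsey (kite u) := by
  obtain ⟨m, T, val, hm, hT, hd⟩ := h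
  rw [← range_kitePt]
  apply ramsey_of_family
  intro r hr
  obtain ⟨n, hn1, hn⟩ := cycle_family_ramsey m hm T hT val r hr
  refine ⟨n, hn1, fun χ => ?_⟩
  obtain ⟨X, hmono, hX⟩ := hn χ
  exact ⟨X, hmono, fun i i' => (hX i i').trans (hd i i')⟩

theorem kite_ramsey_half_one (P Q : ℕ) (hPQ : P < Q) (hQ : Q < 2 * P) :
    IsRamsey (kite ((P : ℝ) / Q)) :=
  kite_ramsey_of_model _ (kite_cycle_model P Q hPQ hQ)

theorem kite_ramsey_half : IsRamsey (kite (1 / 2)) :=
  kite_ramsey_of_model _ square_cycle_model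

theorem kite_ramsey_symm (u : ℝ) (h : IsRamsey (kite (1 - u))) : IsRamsey (kite u) := by
  intro r hr
  obtain ⟨D, hD, hc⟩ := h r hr
  refine ⟨D, hD, fun c => ?_⟩
  obtain ⟨f, hdist, k, hk⟩ := hc c
  refine ⟨fun x => f (refl x), ?_, k, fun a ha => hk _ (refl_mem_kite u a ha)⟩
  intro a ha b hb
  rw [hdist _ (refl_mem_kite u a ha) _ (refl_mem_kite u b hb), dist_refl]

/-- Every right kite with rational parameter is Ramsey. -/
theorem kite_ramsey_rat (u : ℚ) (h0 : 0 < u) (h1 : u < 1) : IsRamsey (kite (u : ℝ)) := by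
  obtain ⟨P, hP⟩ : ∃ P : ℕ, u.num = P := ⟨u.num.toNat, by
    rw [Int.toNat_of_nonneg (Rat.num_nonneg.mpr h0.le)]⟩
  set Q := u.den with hQ
  have hQpos : 0 < Q := u.den_pos
  have hu : (u : ℝ) = (P : ℝ) / Q := by
    have : u = (u.num : ℚ) / (u.den : ℚ) := (Rat.num_div_den u).symm
    rw [this, hP]
    push_cast
    rfl
  have hQR : (0 : ℝ) < Q := by exact_mod_cast hQpos
  have h0' : (0 : ℝ) < u := by exact_mod_cast h0
  have h1' : (u : ℝ) < 1 := by exact_mod_cast h1
  have hPpos : 0 < P := by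
    rw [hu] at h0'
    have : (0 : ℝ) < P := by
      by_contra hcon
      push Not at hcon
      have := div_nonpos_of_nonpos_of_nonneg hcon hQR.le
      linarith
    exact_mod_cast this
  have hPQ : P < Q := by
    rw [hu, div_lt_one hQR] at h1'
    exact_mod_cast h1'
  rcases lt_trichotomy Q (2 * P) with h | h | h
  · rw [hu]
    exact kite_ramsey_half_one P Q hPQ h
  · have : (u : ℝ) = 1 / 2 := by
      rw [hu, h]
      push_cast
      have : (P : ℝ) ≠ 0 := by exact_mod_cast hPpos.ne'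
      field_simp
    rw [this]
    exact kite_ramsey_half
  · apply kite_ramsey_symm
    have : 1 - (u : ℝ) = ((Q - P : ℕ) : ℝ) / Q := by
      rw [hu, Nat.cast_sub hPQ.le]
      field_simp
    rw [this]
    exact kite_ramsey_half_one (Q - P) Q (by omega) (by omega)

end Vale.Agent.P058
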