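import Vale.Agent.Lib.P058.Ramsey.KiteCycle

/-!
# P058: right kites with quadratic parameter as four cycle-matching vectors

Let `0 < u < 1` and let `p, q, a` be natural numbers, `p + q ≥ 1`, with
`a u (1 - u) = p u + q (1 - u)` (so `a = p / (1 - u) + q / u ≥ p + q`).
Cycle of length `2 n`, `n = a + p + q`.  Edge `s` joins `s` and `csucc m s`.  Letters:
* even edge `2 i`: `A` if `i < p`, `B` if `p ≤ i < p + q`, `E` otherwise;
* odd edge `2 i + 1`: `C` if `p + q ≤ i < a`, `D` otherwise.
Edge sets: `T_A = A ∪ E`, `T_B = B ∪ E`, `T_C = C ∪ D` (all odd edges), `T_D = D`.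
Increments: `A : x = -t / (2 (1 - u))`, `B : y = -t / (2 u)`, `E : -t / 2`, `C : t`, `D : t / 2`.
On every edge `[T_C] e + [T_D] e - 2 (1 - u) [T_A] e - 2 u [T_B] e = t`, which gives the affine
relation of the kite; the total increment is `p x + q y + a t / 2 = 0`.
The vectors of `T_A`, `T_B` differ only at the coordinates `< 2 (p + q)`, those of `T_C`, `T_D`
only at coordinates `> 2 (p + q)`; this gives the symmetry `dist a b = dist a d`.
-/

namespace Vale.Agent.P058

open scoped BigOperators

theorem kc_three (n p q : ℕ) (h : p + q ≤ n) (x y z : ℝ) :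
    ∑ i ∈ Finset.range n, (if i < p then x else if i < p + q then y else z) =
      p * x + q * y + ((n : ℝ) - p - q) * z := by
  have h1 : ∀ i ∈ Finset.range n, (if i < p then x else if i < p + q then y else z) =
      z + (if 0 ≤ i ∧ i < p then x - z else 0) + (if p ≤ i ∧ i < p + q then y - z else 0) := by
    intro i _
    split_ifs <;> first | (exfalso; omega) | ring
  rw [Finset.sum_congr rfl h1, Finset.sum_add_distrib, Finset.sum_add_distrib,
    kc_count n 0 p (Nat.zero_le p) (by omega), kc_count n p (p + q) (by omega) h,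
    Finset.sum_const, Finset.card_range, nsmul_eq_mul]
  push_cast
  ring

theorem kc_dist_pair {m : ℕ} {S T : ℕ → Bool} (hS : Indep m S) (hT : Indep m T) (val e : ℕ → ℝ)
    (he : ∀ y, y ≤ m → val (csucc m y) - val y = e y)
    (hz : ∀ y, y ≤ m → (kcI S e y - kcI T e y) * (kcI S e (cpred m y) - kcI T e (cpred m y)) = 0) :
    dist (cycVec m val S) (cycVec m val T) ^ 2 =
      2 * ∑ y ∈ Finset.range (m + 1), (kcI S e y - kcI T e y) ^ 2 := by
  rw [kc_dist_sq]
  have h1 : ∀ y ∈ Finset.range (m + 1),
      (val (swapAt m S y) - val (swapAt m T y)) ^ 2 =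
      (kcI S e y - kcI T e y) ^ 2 + (kcI S e (cpred m y) - kcI T e (cpred m y)) ^ 2 := by
    intro y hy
    have hy' : y ≤ m := by simpa [Nat.lt_succ_iff] using hy
    rw [kc_swap_val hS val e he hy', kc_swap_val hT val e he hy']
    have := hz y hy'
    linear_combination (-2 : ℝ) * this
  have h2 : ∑ y ∈ Finset.range (m + 1), (kcI S e (cpred m y) - kcI T e (cpred m y)) ^ 2 =
      ∑ y ∈ Finset.range (m + 1), (kcI S e y - kcI T e y) ^ 2 :=
    kc_sum_cpred m (fun s => (kcI S e s - kcI T e s) ^ 2)
  rw [Finset.sum_congr rfl h1, Finset.sum_add_distrib, h2]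
  ring

/-- the edge set `A ∪ E` -/
def qA (p q s : ℕ) : Bool := decide (s % 2 = 0 ∧ ¬ (p ≤ s / 2 ∧ s / 2 < p + q))

/-- the edge set `B ∪ E` -/
def qB (p s : ℕ) : Bool := decide (s % 2 = 0 ∧ p ≤ s / 2)

/-- the edge set `D` -/
def qD (p q a s : ℕ) : Bool := decide (s % 2 = 1 ∧ ¬ (p + q ≤ s / 2 ∧ s / 2 < a))

/-- the increments -/
noncomputable def qE (p q a : ℕ) (x y z t : ℝ) (s : ℕ) : ℝ :=
  if s % 2 = 0 then (if s / 2 < p then x else if s / 2 < p + q then y else z)
  else (if p + q ≤ s / 2 ∧ s / 2 < a then t else t / 2)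

theorem qA_even (p q i : ℕ) : qA p q (2 * i) = true ↔ ¬ (p ≤ i ∧ i < p + q) := by
  unfold qA
  simp only [decide_eq_true_eq]
  omega

theorem qA_odd (p q i : ℕ) : qA p q (2 * i + 1) = false := by
  unfold qA
  simp only [decide_eq_false_iff_not]
  omega

theorem qB_even (p i : ℕ) : qB p (2 * i) = true ↔ p ≤ i := by
  unfold qB
  simp only [decide_eq_true_eq]
  omega

theorem qB_odd (p i : ℕ) : qB p (2 * i + 1) = false := by
  unfold qB
  simp only [decide_eq_false_iff_not]
  omega

theorem qD_even (p q a i : ℕ) : qD p q a (2 * i) = false := by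
  unfold qD
  simp only [decide_eq_false_iff_not]
  omega

theorem qD_odd (p q a i : ℕ) : qD p q a (2 * i + 1) = true ↔ ¬ (p + q ≤ i ∧ i < a) := by
  unfold qD
  simp only [decide_eq_true_eq]
  omega

theorem qE_even (p q a : ℕ) (x y z t : ℝ) (i : ℕ) :
    qE p q a x y z t (2 * i) = if i < p then x else if i < p + q then y else z := by
  unfold qE
  have h1 : 2 * i % 2 = 0 := by omega
  have h2 : 2 * i / 2 = i := by omega
  rw [if_pos h1, h2]

theorem qE_odd (p q a : ℕ) (x y z t : ℝ) (i : ℕ) :
    qE p q a x y z t (2 * i + 1) = if p + q ≤ i ∧ i < a then t else t / 2 := by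
  unfold qE
  have h1 : ¬ ((2 * i + 1) % 2 = 0) := by omega
  have h2 : (2 * i + 1) / 2 = i := by omega
  rw [if_neg h1, h2]

theorem q_indep_of_even {m n : ℕ} (hm : m + 1 = 2 * n) (T : ℕ → Bool)
    (hT : ∀ s, T s = true → s % 2 = 0) : Indep m T := by
  intro y _ h1
  have h2 := hT y h1
  by_contra h3
  rw [Bool.not_eq_false] at h3
  have h4 := hT _ h3
  unfold csucc at h4
  split_ifs at h4 <;> omega

theorem q_indep_of_odd {m n : ℕ} (hm : m + 1 = 2 * n) (T : ℕ → Bool)
    (hT : ∀ s, T s = true → s % 2 = 1) : Indep m T := by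
  intro y _ h1
  have h2 := hT y h1
  by_contra h3
  rw [Bool.not_eq_false] at h3
  have h4 := hT _ h3
  unfold csucc at h4
  split_ifs at h4 <;> omega

theorem qA_par (p q s : ℕ) (h : qA p q s = true) : s % 2 = 0 := by
  unfold qA at h
  simp only [decide_eq_true_eq] at h
  exact h.1

theorem qB_par (p s : ℕ) (h : qB p s = true) : s % 2 = 0 := by
  unfold qB at h
  simp only [decide_eq_true_eq] at h
  exact h.1

theorem qD_par (p q a s : ℕ) (h : qD p q a s = true) : s % 2 = 1 := by
  unfold qD at h
  simp only [decide_eq_true_eq] at h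
  exact h.1

theorem kcOdd_par (s : ℕ) (h : kcOdd s = true) : s % 2 = 1 := by
  unfold kcOdd at h
  simpa only [decide_eq_true_eq] using h

theorem q_pattern (p q a : ℕ) (u x y t : ℝ) (hx : 2 * (1 - u) * x = -t) (hy : 2 * u * y = -t)
    (s : ℕ) :
    kcI kcOdd (qE p q a x y (-t / 2) t) s + kcI (qD p q a) (qE p q a x y (-t / 2) t) s
      - 2 * (1 - u) * kcI (qA p q) (qE p q a x y (-t / 2) t) s
      - 2 * u * kcI (qB p) (qE p q a x y (-t / 2) t) s = t := by
  rcases Nat.even_or_odd' s with ⟨i, rfl | rfl⟩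
  · simp only [kcI, kcOdd_even, qD_even, qA_even, qB_even, qE_even, Bool.false_eq_true, if_false]
    split_ifs <;> first
      | (exfalso; omega)
      | linear_combination (-1 : ℝ) * hx
      | linear_combination (-1 : ℝ) * hy
      | ring
  · simp only [kcI, kcOdd_odd, qD_odd, qA_odd, qB_odd, qE_odd, Bool.false_eq_true, if_false,
      if_true]
    split_ifs <;> first
      | (exfalso; omega)
      | ring

theorem q_total (p q a n : ℕ) (hpq : p + q ≤ a) (hn : n = a + (p + q)) (x y z t : ℝ) :
    ∑ s ∈ Finset.range (2 * n), qE p q a x y z t s =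
      p * x + q * y + a * z + a * t := by
  rw [kc_sum_even_odd, Finset.sum_add_distrib]
  simp only [qE_even, qE_odd]
  rw [kc_three n p q (by omega), kc_count' n (p + q) a hpq (by omega), hn]
  push_cast
  ring

theorem q_sum_AB (p q a n : ℕ) (hn : p + q ≤ n) (x y z t : ℝ) :
    ∑ s ∈ Finset.range (2 * n),
      (kcI (qA p q) (qE p q a x y z t) s - kcI (qB p) (qE p q a x y z t) s) ^ 2 =
      p * x ^ 2 + q * y ^ 2 := by
  rw [kc_sum_even_odd, Finset.sum_add_distrib]
  have h1 : ∀ i, (kcI (qA p q) (qE p q a x y z t) (2 * i)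
      - kcI (qB p) (qE p q a x y z t) (2 * i)) ^ 2 =
      if i < p then x ^ 2 else if i < p + q then y ^ 2 else 0 := by
    intro i
    simp only [kcI, qA_even, qB_even, qE_even]
    split_ifs <;> first | (exfalso; omega) | ring
  have h2 : ∀ i, (kcI (qA p q) (qE p q a x y z t) (2 * i + 1)
      - kcI (qB p) (qE p q a x y z t) (2 * i + 1)) ^ 2 = 0 := by
    intro i
    simp [kcI, qA_odd, qB_odd]
  simp only [h1, h2, Finset.sum_const_zero, add_zero]
  rw [kc_three n p q hn]
  ring

theorem q_AB_odd (p q : ℕ) (e : ℕ → ℝ) (s : ℕ) (hs : s % 2 = 1) :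
    kcI (qA p q) e s - kcI (qB p) e s = 0 := by
  have h1 : qA p q s = false := by
    by_contra h
    rw [Bool.not_eq_false] at h
    have := qA_par p q s h
    omega
  have h2 : qB p s = false := by
    by_contra h
    rw [Bool.not_eq_false] at h
    have := qB_par p s h
    omega
  simp [kcI, h1, h2]

theorem q_swap_cases (p q a n m : ℕ) (hpq0 : 0 < p + q) (hn : n = a + (p + q))
    (hm : m + 1 = 2 * n) (y : ℕ) (hy : y ≤ m) :
    swapAt m kcOdd y = swapAt m (qD p q a) y ∨ swapAt m (qA p q) y = swapAt m (qB p) y := by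
  by_cases h : y < 2 * (p + q)
  · left
    have e1 : kcOdd y = qD p q a y := by
      simp only [kcOdd, qD, decide_eq_decide]
      omega
    have e2 : kcOdd (cpred m y) = qD p q a (cpred m y) := by
      unfold cpred
      split_ifs with hy0
      · simp only [kcOdd, qD, decide_eq_decide]
        omega
      · simp only [kcOdd, qD, decide_eq_decide]
        omega
    unfold swapAt
    rw [e1, e2]
  · right
    have e1 : qA p q y = qB p y := by
      simp only [qA, qB, decide_eq_decide]
      omega
    have e2 : qA p q (cpred m y) = qB p (cpred m y) := by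
      unfold cpred
      split_ifs with hy0
      · simp only [qA, qB, decide_eq_decide]
        omega
      · simp only [qA, qB, decide_eq_decide]
        omega
    unfold swapAt
    rw [e1, e2]

/-- Right kites whose parameter satisfies `a u (1 - u) = p u + q (1 - u)` with natural numbers
`p, q, a` are congruent to four cycle-matching vectors. -/
theorem kite_cycle_model_quad (u : ℝ) (h0 : 0 < u) (h1 : u < 1) (p q a : ℕ) (hpq0 : 0 < p + q)
    (hrel : (a : ℝ) * (u * (1 - u)) = p * u + q * (1 - u)) :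
    ∃ (m : ℕ) (T : Fin 4 → ℕ → Bool) (val : ℕ → ℝ), 2 ≤ m ∧ (∀ i, Indep m (T i)) ∧
      ∀ i i', dist (cycVec m val (T i)) (cycVec m val (T i'))
        = dist (kitePt u i) (kitePt u i') := by
  have h1u : 0 < 1 - u := by linarith
  have hpqa : p + q ≤ a := by
    have : ((p + q : ℕ) : ℝ) ≤ a := by
      by_contra hcon
      push Not at hcon
      have h2 : (a : ℝ) * (u * (1 - u)) < ((p + q : ℕ) : ℝ) * (u * (1 - u)) :=
        mul_lt_mul_of_pos_right hcon (by positivity)
      push_cast at h2
      nlinarith [mul_nonneg (Nat.cast_nonneg (α := ℝ) p) (sq_nonneg u),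
        mul_nonneg (Nat.cast_nonneg (α := ℝ) q) (sq_nonneg (1 - u))]
    exact_mod_cast this
  obtain ⟨n, hn⟩ : ∃ n, n = a + (p + q) := ⟨_, rfl⟩
  obtain ⟨m, hm⟩ : ∃ m, m + 1 = 2 * n := ⟨2 * n - 1, by omega⟩
  -- the scale
  set K : ℝ := (p : ℝ) / (2 * (1 - u)) ^ 2 + (q : ℝ) / (2 * u) ^ 2 with hK
  have hKpos : 0 < K := by
    have hp : (0 : ℝ) ≤ (p : ℝ) / (2 * (1 - u)) ^ 2 := by positivity
    have hq : (0 : ℝ) ≤ (q : ℝ) / (2 * u) ^ 2 := by positivity
    rcases Nat.eq_zero_or_pos p with hp0 | hp0
    · have hq0 : (0 : ℝ) < q := by exact_mod_cast (by omega : 0 < q)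
      have : (0 : ℝ) < (q : ℝ) / (2 * u) ^ 2 := by positivity
      linarith
    · have hp0' : (0 : ℝ) < p := by exact_mod_cast hp0
      have : (0 : ℝ) < (p : ℝ) / (2 * (1 - u)) ^ 2 := by positivity
      linarith
  obtain ⟨t, ht⟩ : ∃ t : ℝ, t ^ 2 * K = 2 := by
    refine ⟨Real.sqrt (2 / K), ?_⟩
    rw [Real.sq_sqrt (by positivity)]
    field_simp
  set x : ℝ := -t / (2 * (1 - u)) with hxdef
  set y : ℝ := -t / (2 * u) with hydef
  have hx : 2 * (1 - u) * x = -t := by
    rw [hxdef]; field_simp
  have hy : 2 * u * y = -t := by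
    rw [hydef]; field_simp
  have hxy : (p : ℝ) * x ^ 2 + q * y ^ 2 = 2 := by
    have e1 : x ^ 2 = t ^ 2 / (2 * (1 - u)) ^ 2 := by
      rw [hxdef, div_pow]; ring
    have e2 : y ^ 2 = t ^ 2 / (2 * u) ^ 2 := by
      rw [hydef, div_pow]; ring
    calc (p : ℝ) * x ^ 2 + q * y ^ 2 = t ^ 2 * K := by rw [e1, e2, hK]; ring
      _ = 2 := ht
  set e : ℕ → ℝ := qE p q a x y (-t / 2) t with he_def
  set val : ℕ → ℝ := fun s => ∑ k ∈ Finset.range s, e k with hval
  have hlin : (p : ℝ) * x + q * y + a * (t / 2) = 0 := by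
    have h2 : (2 * (u * (1 - u))) * ((p : ℝ) * x + q * y + a * (t / 2)) = 0 := by
      linear_combination (p : ℝ) * u * hx + (q : ℝ) * (1 - u) * hy + t * hrel
    rcases mul_eq_zero.mp h2 with h3 | h3
    · exfalso
      have : 0 < 2 * (u * (1 - u)) := by positivity
      linarith
    · exact h3
  have htot : ∑ k ∈ Finset.range (m + 1), e k = 0 := by
    rw [hm, he_def, q_total p q a n hpqa hn]
    linear_combination hlin
  have he : ∀ y, y ≤ m → val (csucc m y) - val y = e y := by
    intro y _
    unfold csucc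
    split_ifs with hy
    · subst hy
      rw [Finset.sum_range_succ] at htot
      simp only [hval, Finset.sum_range_zero]
      linarith
    · simp only [hval, Finset.sum_range_succ]
      ring
  have IA : Indep m (qA p q) := q_indep_of_even hm _ (qA_par p q)
  have IB : Indep m (qB p) := q_indep_of_even hm _ (qB_par p)
  have IC : Indep m kcOdd := q_indep_of_odd hm _ kcOdd_par
  have ID : Indep m (qD p q a) := q_indep_of_odd hm _ (qD_par p q a)
  refine ⟨m, ![qA p q, qB p, kcOdd, qD p q a], val, by omega, ?_, ?_⟩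
  · intro i
    fin_cases i
    · exact IA
    · exact IB
    · exact IC
    · exact ID
  have hpt : ∀ z, z ≤ m → val (swapAt m kcOdd z) + val (swapAt m (qD p q a) z) =
      2 * (1 - u) * val (swapAt m (qA p q) z) + 2 * u * val (swapAt m (qB p) z) := by
    intro z hz
    rw [kc_swap_val IC val e he hz, kc_swap_val ID val e he hz, kc_swap_val IA val e he hz,
      kc_swap_val IB val e he hz]
    have b1 := q_pattern p q a u x y t hx hy z
    have b2 := q_pattern p q a u x y t hx hy (cpred m z)
    rw [← he_def] at b1 b2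
    linear_combination b1 - b2
  have hsym : dist (cycVec m val (qA p q)) (cycVec m val kcOdd) =
      dist (cycVec m val (qA p q)) (cycVec m val (qD p q a)) := by
    refine (pow_left_inj₀ dist_nonneg dist_nonneg two_ne_zero).mp ?_
    rw [kc_dist_sq, kc_dist_sq]
    apply Finset.sum_congr rfl
    intro z hz
    have hz' : z ≤ m := by simpa [Nat.lt_succ_iff] using hz
    have hr := hpt z hz'
    rcases q_swap_cases p q a n m hpq0 hn hm z hz' with h | h
    · rw [h]
    · rw [← h] at hr
      have h2 : val (swapAt m kcOdd z) =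
          2 * val (swapAt m (qA p q) z) - val (swapAt m (qD p q a) z) := by linarith
      rw [h2]
      ring
  have hac : dist (cycVec m val (qA p q)) (cycVec m val (qB p)) = 2 := by
    refine (pow_left_inj₀ dist_nonneg (by norm_num) two_ne_zero).mp ?_
    rw [kc_dist_pair IA IB val e he, hm, he_def, q_sum_AB p q a n (by omega)]
    · linear_combination 2 * hxy
    · intro z hz
      rcases Nat.mod_two_eq_zero_or_one z with hpar | hpar
      · have : cpred m z % 2 = 1 := by
          unfold cpred
          split_ifs <;> omega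
        rw [q_AB_odd p q e _ this, mul_zero]
      · rw [q_AB_odd p q e _ hpar, zero_mul]
  have hrel' : cycVec m val kcOdd + cycVec m val (qD p q a) =
      (2 * (1 - u)) • cycVec m val (qA p q) + (2 * u) • cycVec m val (qB p) := by
    ext z
    have hz : z.val ≤ m := Nat.lt_succ_iff.mp z.isLt
    simp only [PiLp.add_apply, PiLp.smul_apply, smul_eq_mul, cycVec_apply]
    exact hpt z.val hz
  obtain ⟨r01, r02, r03, r12, r13, r23⟩ := four_vectors_kite u h0 h1
    (cycVec m val (qA p q)) (cycVec m val (qB p)) (cycVec m val kcOdd)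
    (cycVec m val (qD p q a)) (kc_norm_eq val IC IA) (kc_norm_eq val IB IA) (kc_norm_eq val ID IA)
    hrel' hsym hac
  exact dist_family_eq
    (fun i => cycVec m val ((![qA p q, qB p, kcOdd, qD p q a] : Fin 4 → ℕ → Bool) i))
    (kitePt u) r01 r02 r03 r12 r13 r23

end Vale.Agent.P058
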