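import Vale.Agent.Lib.P058.Ramsey.QuadCycle
import Vale.Agent.Lib.P058.Ramsey.KiteRamsey
import Vale.Agent.Lib.P058.KiteNeg

/-!
# P058: right kites whose parameter has degree at most two
-/

namespace Vale.Agent.P058

open scoped BigOperators

theorem kc_cpred_csucc {m y : ℕ} (hy : y ≤ m) : cpred m (csucc m y) = y := by
  by_cases h : y = m
  · subst h
    simp [csucc, cpred]
  · simp [csucc, cpred, h]

theorem kc_csucc_le {m y : ℕ} (hy : y ≤ m) : csucc m y ≤ m := by
  unfold csucc
  split_ifs <;> omega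

theorem swapAt_invol {m : ℕ} {T : ℕ → Bool} (hI : Indep m T) {y : ℕ} (hy : y ≤ m) :
    swapAt m T (swapAt m T y) = y := by
  by_cases h1 : T y = true
  · have h2 : swapAt m T y = csucc m y := by simp [swapAt, h1]
    have h3 : T (csucc m y) = false := hI y hy h1
    rw [h2]
    unfold swapAt
    rw [kc_cpred_csucc hy]
    simp [h3, h1]
  · rw [Bool.not_eq_true] at h1
    by_cases h2 : T (cpred m y) = true
    · have h3 : swapAt m T y = cpred m y := by simp [swapAt, h1, h2]
      rw [h3]
      unfold swapAt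
      simp [h2, kc_csucc_cpred hy]
    · rw [Bool.not_eq_true] at h2
      have h3 : swapAt m T y = y := by simp [swapAt, h1, h2]
      rw [h3, h3]

/-- the coordinate permutation exchanging the ends of the chosen edges -/
def swapPerm (m : ℕ) (T : ℕ → Bool) (hI : Indep m T) : Equiv.Perm (Fin (m + 1)) :=
  Function.Involutive.toPerm
    (fun y : Fin (m + 1) => ⟨swapAt m T y.val,
      Nat.lt_succ_iff.mpr (swapAt_le m T y.val (Nat.lt_succ_iff.mp y.isLt))⟩)
    (fun y => Fin.ext (swapAt_invol hI (Nat.lt_succ_iff.mp y.isLt)))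

theorem cycVec_mem_permOrbit (m : ℕ) (val : ℕ → ℝ) (T : ℕ → Bool) (hI : Indep m T) :
    cycVec m val T ∈ permOrbit (cycVec m val (fun _ => false)) := by
  refine ⟨swapPerm m T hI, ?_⟩
  ext y
  rw [act_apply, cycVec_apply, cycVec_apply, kc_swap_empty]
  rfl

theorem kite_subtransitive_of_model (u : ℝ)
    (h : ∃ (m : ℕ) (T : Fin 4 → ℕ → Bool) (val : ℕ → ℝ), 2 ≤ m ∧ (∀ i, Indep m (T i)) ∧
      ∀ i i', dist (cycVec m val (T i)) (cycVec m val (T i'))
        = dist (kitePt u i) (kitePt u i')) : IsSubtransitive (kite u) := by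
  obtain ⟨m, T, val, _, hT, hd⟩ := h
  rw [← range_kitePt]
  exact subtransitive_of_family (kitePt u) (permOrbit (cycVec m val (fun _ => false)))
    (permOrbit_transitive _) (fun i => cycVec m val (T i))
    (fun i => cycVec_mem_permOrbit m val (T i) (hT i)) hd

/-- Kites with `a u (1 - u) = p u + q (1 - u)` are Ramsey and subtransitive. -/
theorem kite_quad_nat (u : ℝ) (h0 : 0 < u) (h1 : u < 1) (p q a : ℕ) (hpq0 : 0 < p + q)
    (hrel : (a : ℝ) * (u * (1 - u)) = p * u + q * (1 - u)) :
    IsRamsey (kite u) ∧ IsSubtransitive (kite u) :=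
  ⟨kite_ramsey_of_model u (kite_cycle_model_quad u h0 h1 p q a hpq0 hrel),
    kite_subtransitive_of_model u (kite_cycle_model_quad u h0 h1 p q a hpq0 hrel)⟩

/-- a positive rational times a multiple of its denominator is a positive natural number -/
theorem exists_nat_of_rat (z : ℚ) (hz : 0 < z) (k : ℕ) (hk : 0 < k) :
    ∃ N : ℕ, 0 < N ∧ (N : ℝ) = (z : ℝ) * ((z.den * k : ℕ) : ℝ) := by
  obtain ⟨P, hP⟩ : ∃ P : ℕ, z.num = P := ⟨z.num.toNat, by
    rw [Int.toNat_of_nonneg (Rat.num_nonneg.mpr hz.le)]⟩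
  have hPpos : 0 < P := by
    have : 0 < z.num := Rat.num_pos.mpr hz
    omega
  refine ⟨P * k, Nat.mul_pos hPpos hk, ?_⟩
  have hden : (z.den : ℝ) ≠ 0 := by exact_mod_cast z.den_pos.ne'
  have hz' : (z : ℝ) = (P : ℝ) / z.den := by
    rw [Rat.cast_def, hP]
    push_cast
    rfl
  rw [hz']
  push_cast
  field_simp

/-- If `u, u'` in `(0,1)` are the two roots of a quadratic polynomial with rational coefficients,
the kite with parameter `u` is Ramsey and subtransitive. -/
theorem kite_quad_pos (u u' : ℝ) (s r : ℚ) (h0 : 0 < u) (h1 : u < 1) (h0' : 0 < u') (h1' : u' < 1)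
    (hs : u + u' = s) (hr : u * u' = r) : IsRamsey (kite u) ∧ IsSubtransitive (kite u) := by
  have hrpos : 0 < r := by
    have : (0 : ℝ) < r := by rw [← hr]; positivity
    exact_mod_cast this
  have hwpos : 0 < 1 - s + r := by
    have : (0 : ℝ) < ((1 - s + r : ℚ) : ℝ) := by
      push_cast
      rw [← hr, ← hs]
      nlinarith [mul_pos (sub_pos.mpr h1) (sub_pos.mpr h1')]
    exact_mod_cast this
  set w : ℚ := 1 - s + r with hw
  obtain ⟨q, hq0, hq⟩ := exists_nat_of_rat r hrpos w.den w.den_pos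
  obtain ⟨p, hp0, hp⟩ := exists_nat_of_rat w hwpos r.den r.den_pos
  refine kite_quad_nat u h0 h1 p q (r.den * w.den) (by omega) ?_
  rw [hq, hp]
  have hwR : (w : ℝ) = 1 - (u + u') + u * u' := by
    rw [hw, hs, hr]; push_cast; ring
  rw [hwR, ← hr]
  push_cast
  ring

/-- If the irrational number `u` in `(0,1)` and `u'` outside `[0,1]` are the two roots of a
quadratic polynomial with rational coefficients, the kite with parameter `u` is not
subtransitive. -/
theorem kite_quad_neg (u u' : ℝ) (s r : ℚ) (h0 : 0 < u) (h1 : u < 1)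
    (hs : u + u' = s) (hr : u * u' = r) (hirr : Irrational u) (hu' : u' < 0 ∨ 1 < u') :
    ¬ IsSubtransitive (kite u) := by
  set f : Polynomial ℚ := Polynomial.X ^ 2 - Polynomial.C s * Polynomial.X + Polynomial.C r
    with hf
  have hev : ∀ z : ℝ, Polynomial.aeval z f = z ^ 2 - s * z + r := by
    intro z
    simp [hf]
  have hfu : Polynomial.aeval u f = 0 := by
    rw [hev, ← hs, ← hr]; ring
  have hfu' : Polynomial.aeval u' f = 0 := by
    rw [hev, ← hs, ← hr]; ring
  have hdeg : f.natDegree = 2 := by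
    rw [hf]; compute_degree!
  have hmonic : f.Monic := by
    rw [hf]; monicity!
  have hint : IsIntegral ℚ u := ⟨f, hmonic, by simpa [Polynomial.aeval_def] using hfu⟩
  have hdvd : minpoly ℚ u ∣ f := minpoly.dvd ℚ u hfu
  have h2 : 2 ≤ (minpoly ℚ u).natDegree := by
    rw [minpoly.two_le_natDegree_iff hint]
    rintro ⟨z, hz⟩
    exact hirr ⟨z, hz⟩
  have heq : f = minpoly ℚ u :=
    Polynomial.eq_of_monic_of_dvd_of_natDegree_le (minpoly.monic hint) hmonic hdvd (by omega)
  exact kite_not_subtransitive_of_conjugate u u' h0 h1 hint.isAlgebraic (heq ▸ hfu') hu'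

/-- For an irrational root `u` in `(0,1)` of a rational quadratic polynomial with other root `u'`:
the kite is subtransitive exactly if `u'` lies in `(0,1)`. -/
theorem kite_quad_iff (u u' : ℝ) (s r : ℚ) (h0 : 0 < u) (h1 : u < 1)
    (hs : u + u' = s) (hr : u * u' = r) (hirr : Irrational u) :
    IsSubtransitive (kite u) ↔ (0 < u' ∧ u' < 1) := by
  constructor
  · intro hsub
    by_contra hcon
    have hne0 : u' ≠ 0 := by
      intro h
      apply hirr
      refine ⟨s, ?_⟩
      rw [← hs, h, add_zero]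
    have hne1 : u' ≠ 1 := by
      intro h
      apply hirr
      refine ⟨s - 1, ?_⟩
      push_cast
      rw [← hs, h]
      ring
    have hout : u' < 0 ∨ 1 < u' := by
      by_contra h
      push Not at h
      exact hcon ⟨lt_of_le_of_ne h.1 (Ne.symm hne0), lt_of_le_of_ne h.2 hne1⟩
    exact kite_quad_neg u u' s r h0 h1 hs hr hirr hout hsub
  · rintro ⟨h0', h1'⟩
    exact (kite_quad_pos u u' s r h0 h1 h0' h1' hs hr).2

/-- Subtransitive implies Ramsey for right kites whose parameter has degree at most two. -/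
theorem kite_quad_lrw (u : ℝ) (s r : ℚ) (h0 : 0 < u) (h1 : u < 1)
    (hroot : u ^ 2 - s * u + r = 0) (hsub : IsSubtransitive (kite u)) : IsRamsey (kite u) := by
  by_cases hirr : Irrational u
  · have hs : u + ((s : ℝ) - u) = s := by ring
    have hr : u * ((s : ℝ) - u) = r := by linear_combination (-1 : ℝ) * hroot
    obtain ⟨h0', h1'⟩ := (kite_quad_iff u (s - u) s r h0 h1 hs hr hirr).mp hsub
    exact (kite_quad_pos u (s - u) s r h0 h1 h0' h1' hs hr).1
  · unfold Irrational at hirr
    rw [not_not] at hirr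
    obtain ⟨z, rfl⟩ := hirr
    exact (kite_quad_pos (z : ℝ) (z : ℝ) (z + z) (z * z) h0 h1 h0 h1 (by push_cast; ring)
      (by push_cast; ring)).1

end Vale.Agent.P058
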