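import Vale.Agent.Lib.P058.Ramsey.Hyper

/-!
# P058: one step of the level induction

Words are functions `Fin n → A` over a finite alphabet `A`; a tuple of words is indexed by `I`.
`Good A I r gl nl run Φ` says: for `r` colours there is a length `n` such that every colouring of
the words of length `n` has a monochromatic tuple of words with two tracked columns `pG < pN`
carrying the letters `gl`, `nl`, such that all letters strictly between the two tracked columns
are equal to `run`, and such that the sum over all columns of any functional `F` vanishing on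
constant columns is `F gl + F nl + Φ F`.
-/

namespace Vale.Agent.P058

open scoped BigOperators

variable {A I : Type}

/-- insertion of the letter `ℓ` at place `t` -/
def ins {q : ℕ} (t : Fin (q + 1)) (ℓ : A) (v : Fin q → A) : Fin (q + 1) → A :=
  Fin.insertNth (α := fun _ => A) t ℓ v

theorem ins_same {q : ℕ} (t : Fin (q + 1)) (ℓ : A) (v : Fin q → A) : ins t ℓ v t = ℓ := by
  simp [ins]

theorem ins_succAbove {q : ℕ} (t : Fin (q + 1)) (ℓ : A) (v : Fin q → A) (a : Fin q) :
    ins t ℓ v (t.succAbove a) = v a := by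
  simp [ins]

theorem ins_eq {q : ℕ} (t : Fin (q + 1)) (ℓ : A) (v : Fin q → A) (s : Fin (q + 1))
    (h : s.val = t.val) : ins t ℓ v s = ℓ := by
  have : s = t := Fin.ext h
  rw [this, ins_same]

theorem ins_lt {q : ℕ} (t : Fin (q + 1)) (ℓ : A) (v : Fin q → A) (s : Fin (q + 1)) (a : Fin q)
    (h1 : s.val < t.val) (h2 : a.val = s.val) : ins t ℓ v s = v a := by
  have : s = t.succAbove a := by
    rw [Fin.succAbove_of_castSucc_lt t a (by rw [Fin.lt_def]; simp; omega)]
    exact Fin.ext (by simp [h2])
  rw [this, ins_succAbove]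

theorem ins_gt {q : ℕ} (t : Fin (q + 1)) (ℓ : A) (v : Fin q → A) (s : Fin (q + 1)) (a : Fin q)
    (h1 : t.val < s.val) (h2 : a.val + 1 = s.val) : ins t ℓ v s = v a := by
  have : s = t.succAbove a := by
    rw [Fin.succAbove_of_le_castSucc t a (by rw [Fin.le_def]; simp; omega)]
    exact Fin.ext (by simp [h2])
  rw [this, ins_succAbove]

/-- the word `v` written on the places `e s`, `s ≠ t`, and the letter `ℓ` everywhere else -/
noncomputable def spread {q n : ℕ} (e : Fin (q + 1) ↪o Fin n) (t : Fin (q + 1)) (ℓ : A) (v : Fin q → A) :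
    Fin n → A :=
  Function.extend ((Fin.succAboveOrderEmb t).trans e) v (fun _ => ℓ)

theorem spread_off {q n : ℕ} (e : Fin (q + 1) ↪o Fin n) (t : Fin (q + 1)) (ℓ : A)
    (v : Fin q → A) (x : Fin n) (hx : x ∉ Set.range e) : spread e t ℓ v x = ℓ := by
  unfold spread
  rw [Function.extend_apply']
  rintro ⟨a, ha⟩
  exact hx ⟨t.succAbove a, ha⟩

theorem spread_apply {q n : ℕ} (e : Fin (q + 1) ↪o Fin n) (t : Fin (q + 1)) (ℓ : A)
    (v : Fin q → A) (s : Fin (q + 1)) : spread e t ℓ v (e s) = ins t ℓ v s := by
  by_cases hs : s = t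
  · subst hs
    rw [ins_same]
    unfold spread
    rw [Function.extend_apply']
    rintro ⟨a, ha⟩
    have : s.succAbove a = s := e.injective ha
    exact Fin.succAbove_ne s a this
  · obtain ⟨a, rfl⟩ := Fin.exists_succAbove_eq hs
    rw [ins_succAbove]
    unfold spread
    exact ((Fin.succAboveOrderEmb t).trans e).injective.extend_apply v _ a

theorem sum_eq_of_eq_off_two {ι : Type} [Fintype ι] (g g' : ι → ℝ) (a b : ι)
    (hab : a ≠ b) (h : ∀ t, t ≠ a → t ≠ b → g t = g' t) :
    ∑ t, g t = ∑ t, g' t - g' a - g' b + g a + g b := by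
  have h1 : ∑ t, (g t - g' t) = (g a - g' a) + (g b - g' b) :=
    Fintype.sum_eq_add a b hab (fun x hx => by rw [h x hx.1 hx.2, sub_self])
  rw [Finset.sum_sub_distrib] at h1
  linarith

/-- see the module docstring -/
def Good (A I : Type) (r : ℕ) (gl nl : I → A) (run : A) (Φ : ((I → A) → ℝ) → ℝ) : Prop :=
  ∃ n : ℕ, ∀ χ : (Fin n → A) → Fin r, ∃ (x : I → Fin n → A) (pG pN : Fin n),
    pG < pN ∧ (∀ i, x i pG = gl i) ∧ (∀ i, x i pN = nl i) ∧
    (∀ i t, pG < t → t < pN → x i t = run) ∧ (∃ k0, ∀ i, χ (x i) = k0) ∧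
    ∀ F : (I → A) → ℝ, (∀ z, F (fun _ => z) = 0) →
      ∑ t, F (fun i => x i t) = F gl + F nl + Φ F

/-- the three ways of inserting the new letter -/
inductive Mode
  | alpha
  | beta
  | gamma

/-- place of the new letter -/
def place {q : ℕ} (pG pN : Fin q) : Mode → Fin (q + 1)
  | .alpha => pG.succ
  | .beta => pN.succ
  | .gamma => pG.castSucc

/-- new letter of the first tracked column -/
def newG (ℓ g : A) : Mode → A
  | .alpha => g
  | .beta => g
  | .gamma => ℓ

/-- letter of the new second tracked column -/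
def newN (ℓ run g : A) : Mode → A
  | .alpha => ℓ
  | .beta => run
  | .gamma => g

/-- final letter of the old second tracked column -/
def oldN (ℓ nl : A) : Mode → A
  | .alpha => nl
  | .beta => ℓ
  | .gamma => nl

theorem Good.base (r : ℕ) (g z : A) : Good A I r (fun _ => g) (fun _ => z) z (fun _ => 0) := by
  refine ⟨2, fun χ => ⟨fun _ => ![g, z], 0, 1, by decide, fun _ => rfl, fun _ => rfl, ?_,
    ⟨χ ![g, z], fun _ => rfl⟩, ?_⟩⟩
  · intro i t h1 h2
    exfalso
    rw [Fin.lt_def] at h1 h2
    simp at h1 h2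
    omega
  · intro F hF
    simp [hF]


theorem Good.step [Finite A] {r : ℕ} (hr : 0 < r) {gl nl : I → A} {run : A}
    {Φ : ((I → A) → ℝ) → ℝ} (h : Good A I r gl nl run Φ) (ℓ : A) (md : I → Mode)
    (hβ : ∀ i, md i = Mode.beta → nl i = run) :
    Good A I r (fun i => newG ℓ (gl i) (md i)) (fun i => newN ℓ run (gl i) (md i)) ℓ
      (fun F => F (fun i => oldN ℓ (nl i) (md i)) + Φ F) := by
  obtain ⟨q, hq⟩ := h
  have : Nonempty (Fin r) := ⟨⟨0, hr⟩⟩
  obtain ⟨n, hn⟩ := ramsey_orderEmb q (q + 1) ((Fin q → A) → Fin r)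
  refine ⟨n, fun χ => ?_⟩
  obtain ⟨e, k0, hk⟩ := hn (fun S v => χ (Function.extend S v (fun _ => ℓ)))
  obtain ⟨v, pG, pN, hlt, hG, hN, hrun, ⟨κ0, hmono⟩, hF⟩ := hq k0
  have hlt' : pG.val < pN.val := hlt
  -- letters just after `pG`
  have hnext : ∀ i, md i = Mode.beta → ∀ a : Fin q, pG.val < a.val → a.val ≤ pN.val →
      v i a = run := by
    intro i hi a h1 h2
    rcases Nat.lt_or_ge a.val pN.val with h3 | h3
    · exact hrun i a h1 h3
    · have : a = pN := Fin.ext (by omega)
      rw [this, hN, hβ i hi]
  -- the three special columns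
  have cG : ∀ i, ins (place pG pN (md i)) ℓ (v i) pG.castSucc = newG ℓ (gl i) (md i) := by
    intro i
    cases hmd : md i
    · simp only [place, newG]
      rw [ins_lt _ _ _ _ pG (by simp) (by simp), hG]
    · simp only [place, newG]
      rw [ins_lt _ _ _ _ pG (by simp; omega) (by simp), hG]
    · simp only [place, newG]
      rw [ins_same]
  have cN : ∀ i, ins (place pG pN (md i)) ℓ (v i) pG.succ = newN ℓ run (gl i) (md i) := by
    intro i
    cases hmd : md i
    · simp only [place, newN]
      rw [ins_same]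
    · simp only [place, newN]
      rw [ins_lt _ _ _ _ (⟨pG.val + 1, by omega⟩ : Fin q) (by simp; omega) (by simp)]
      exact hnext i hmd _ (by simp) (by simp; omega)
    · simp only [place, newN]
      rw [ins_gt _ _ _ _ pG (by simp) (by simp), hG]
  have cO : ∀ i, ins (place pG pN (md i)) ℓ (v i) pN.succ = oldN ℓ (nl i) (md i) := by
    intro i
    cases hmd : md i
    · simp only [place, oldN]
      rw [ins_gt _ _ _ _ pN (by simp; omega) (by simp), hN]
    · simp only [place, oldN]
      rw [ins_same]
    · simp only [place, oldN]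
      rw [ins_gt _ _ _ _ pN (by simp; omega) (by simp), hN]
  have sA_le : ∀ t : Fin q, t.val ≤ pG.val → (pG.succ.succAbove t).val = t.val := by
    intro t ht
    rw [Fin.succAbove_of_castSucc_lt _ _ (by rw [Fin.lt_def]; simp; omega)]
    simp
  have sA_gt : ∀ t : Fin q, pG.val < t.val → (pG.succ.succAbove t).val = t.val + 1 := by
    intro t ht
    rw [Fin.succAbove_of_le_castSucc _ _ (by rw [Fin.le_def]; simp; omega)]
    simp
  have cRest : ∀ i (t : Fin q), t ≠ pG → t ≠ pN →
      ins (place pG pN (md i)) ℓ (v i) (pG.succ.succAbove t) = v i t := by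
    intro i t h1 h2
    have h1' : t.val ≠ pG.val := fun h => h1 (Fin.ext h)
    have h2' : t.val ≠ pN.val := fun h => h2 (Fin.ext h)
    cases hmd : md i
    · simp only [place]
      rw [ins_succAbove]
    · simp only [place]
      rcases Nat.lt_or_ge t.val pG.val with h3 | h3
      · exact ins_lt _ _ _ _ t (by rw [sA_le t h3.le]; simp; omega) (by rw [sA_le t h3.le])
      · have h4 : pG.val < t.val := by omega
        rcases Nat.lt_or_ge t.val pN.val with h5 | h5
        · rw [ins_lt _ _ _ _ (⟨t.val + 1, by omega⟩ : Fin q) (by rw [sA_gt t h4]; simp; omega)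
            (by rw [sA_gt t h4])]
          rw [hnext i hmd _ (by simp; omega) (by simp; omega), hrun i t h4 h5]
        · exact ins_gt _ _ _ _ t (by rw [sA_gt t h4]; simp; omega) (by rw [sA_gt t h4])
    · simp only [place]
      rcases Nat.lt_or_ge t.val pG.val with h3 | h3
      · exact ins_lt _ _ _ _ t (by rw [sA_le t h3.le]; simp; omega) (by rw [sA_le t h3.le])
      · have h4 : pG.val < t.val := by omega
        exact ins_gt _ _ _ _ t (by rw [sA_gt t h4]; simp; omega) (by rw [sA_gt t h4])
  refine ⟨fun i => spread e (place pG pN (md i)) ℓ (v i), e pG.castSucc, e pG.succ, ?_, ?_, ?_, ?_,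
    ⟨κ0, ?_⟩, ?_⟩
  · exact e.lt_iff_lt.mpr Fin.castSucc_lt_succ
  · intro i
    exact (spread_apply _ _ _ _ _).trans (cG i)
  · intro i
    exact (spread_apply _ _ _ _ _).trans (cN i)
  · intro i t h1 h2
    apply spread_off
    rintro ⟨s, rfl⟩
    rw [e.lt_iff_lt, Fin.lt_def] at h1 h2
    simp at h1 h2
    omega
  · intro i
    have := congrFun (hk (Fin.succAboveOrderEmb (place pG pN (md i)))) (v i)
    exact this.trans (hmono i)
  · intro F hF0
    have h1 : ∑ t, F (fun i => spread e (place pG pN (md i)) ℓ (v i) t)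
        = ∑ s, F (fun i => ins (place pG pN (md i)) ℓ (v i) s) := by
      symm
      apply Fintype.sum_of_injective e e.injective
      · intro t ht
        have : (fun i => spread e (place pG pN (md i)) ℓ (v i) t) = fun _ => ℓ := by
          funext i
          exact spread_off _ _ _ _ _ ht
        rw [this, hF0]
      · intro s
        congr 1
        funext i
        rw [spread_apply]
    rw [h1, Fin.sum_univ_succAbove _ pG.succ]
    have h2 := sum_eq_of_eq_off_two
      (fun t => F (fun i => ins (place pG pN (md i)) ℓ (v i) (pG.succ.succAbove t)))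
      (fun t => F (fun i => v i t)) pG pN hlt.ne (by
        intro t h1 h2
        show F _ = F _
        congr 1
        funext i
        exact cRest i t h1 h2)
    rw [h2, hF F hF0]
    have e1 : (fun i => v i pG) = gl := funext hG
    have e2 : (fun i => v i pN) = nl := funext hN
    have e3 : pG.succ.succAbove pG = pG.castSucc := Fin.ext (by rw [sA_le pG le_rfl]; simp)
    have e4 : pG.succ.succAbove pN = pN.succ := Fin.ext (by rw [sA_gt pN hlt']; simp)
    have e5 : (fun i => ins (place pG pN (md i)) ℓ (v i) pG.castSucc)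
        = fun i => newG ℓ (gl i) (md i) := funext cG
    have e6 : (fun i => ins (place pG pN (md i)) ℓ (v i) pG.succ)
        = fun i => newN ℓ run (gl i) (md i) := funext cN
    have e7 : (fun i => ins (place pG pN (md i)) ℓ (v i) pN.succ)
        = fun i => oldN ℓ (nl i) (md i) := funext cO
    simp only [e1, e2, e3, e4, e5, e6, e7]
    ring

end Vale.Agent.P058
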